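import Vale.Agent.P027M.Fo.Exp
import Vale.Agent.P022.H790.A1

/-! # P027 route M, block FORM: row XF, the function `Δ(2τ) / Δ(τ)` -/

set_option linter.all false

open UpperHalfPlane Filter Topology PowerSeries
open scoped MatrixGroups ModularForm Manifold

noncomputable section

namespace Vale.Agent.P027M.Fo

open Vale.Agent.P022 Vale.Agent.P022.H218.L3 Vale.Agent.P022.H231.L3 Vale.Agent.P027M.M
  Vale.Agent.P022.H790.A

namespace Xf

/-- the discriminant -/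
abbrev Dl : ℍ → ℂ := ModularForm.discriminant

theorem d_slash (γ : SL(2, ℤ)) : Dl ∣[(12 : ℤ)] γ = Dl :=
  SlashInvariantForm.slash_action_generators_SL2Z ModularForm.discriminant_S_invariant
    ModularForm.discriminant_T_invariant γ

theorem d_hol : Dl ∈ Hol := (CuspForm.discriminant : CuspForm 𝒮ℒ 12).holo'

theorem d_bdd : Bdd 12 Dl :=
  ⟨d_hol, fun γ => by
    rw [d_slash]; exact ModularForm.discriminant_isZeroAtImInfty.isBoundedAtImInfty⟩

/-- the matrix `(2 0; 0 1)` -/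
def A2 : GL (Fin 2) ℝ := gl !![((2 : ℕ) : ℤ), 0; 0, 1] (diag_pos two_pos)

theorem A2_coe (τ : ℍ) : ((A2 • τ : ℍ) : ℂ) = ((2 : ℕ) : ℂ) * (τ : ℂ) :=
  H236.L3.dg_coe two_pos τ

/-- `Δ ∣ (2 0; 0 1)` -/
def D2 : ℍ → ℂ := Dl ∣[(12 : ℤ)] A2

theorem D2_apply (τ : ℍ) : D2 τ = 2 ^ 11 * Dl (A2 • τ) := by
  have hg : 0 < A2.det.val := gl_pos _ _
  have hs : ∀ z, UpperHalfPlane.σ A2 z = z := by
    intro z
    simp only [UpperHalfPlane.σ, if_pos hg]
    rfl
  have hd : A2.det.val = 2 := by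
    show ((!![((2 : ℕ) : ℤ), 0; 0, 1] : M2).map (Int.cast : ℤ → ℝ)).det = 2
    rw [det_map, Matrix.det_fin_two_of]
    norm_num
  have hn : UpperHalfPlane.denom A2 τ = 1 := by
    rw [UpperHalfPlane.denom, A2, gl_coe]
    simp
  rw [D2, ModularForm.slash_apply, hs, hd, hn]
  norm_num
  ring

theorem D2_bdd : Bdd 12 D2 := by
  have := sl_bdd (l := 2) (P := 1) two_pos Nat.prime_two isCoprime_one_right 1 d_bdd none
  have e : sl (l := 2) two_pos 1 1 12 Dl none = D2 := by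
    unfold sl D2 A2
    congr 1
    apply gl_congr
    simp [al]
  rwa [e] at this

theorem D2_slash (γ : SL(2, ℤ)) (h : (2 : ℤ) ∣ γ 1 0) : D2 ∣[(12 : ℤ)] γ = D2 := by
  obtain ⟨c, hc⟩ := h
  have hdet := γ.det_coe
  rw [Matrix.det_fin_two] at hdet
  let g : SL(2, ℤ) := ⟨!![γ 0 0, 2 * γ 0 1; c, γ 1 1], by
    rw [Matrix.det_fin_two_of]; rw [hc] at hdet; linear_combination hdet⟩
  have e : (!![((2 : ℕ) : ℤ), 0; 0, 1] : M2) * (γ : M2) =
      (g : M2) * !![((2 : ℕ) : ℤ), 0; 0, 1] := by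
    ext i j
    fin_cases i <;> fin_cases j <;> simp [g, Matrix.mul_apply, Fin.sum_univ_two, hc, mul_comm]
  have hp1 : 0 < ((!![((2 : ℕ) : ℤ), 0; 0, 1] : M2) * (γ : M2)).det := by
    rw [Matrix.det_mul]; exact mul_pos (diag_pos two_pos) (SL_pos γ)
  unfold D2 A2
  rw [← slash_gl_SL 12 Dl γ (diag_pos two_pos) hp1, gl_congr e hp1 (e ▸ hp1),
    slash_SL_gl 12 Dl g (diag_pos two_pos) (e ▸ hp1), d_slash]

/-- the function -/
def y (τ : ℍ) : ℂ := Dl (A2 • τ) * (Dl τ)⁻¹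

theorem y_hol : y ∈ Hol := by
  have h1 : MDifferentiable 𝓘(ℂ) 𝓘(ℂ) fun τ => Dl (A2 • τ) := comp_mem' A2 (gl_pos _ _) d_hol
  have h2 : MDifferentiable 𝓘(ℂ) 𝓘(ℂ) Dl := d_hol
  rw [mem_Hol, UpperHalfPlane.mdifferentiable_iff] at *
  intro z hz
  exact (h1 z hz).mul ((h2 z hz).inv (ModularForm.discriminant_ne_zero _))

theorem y_mul : y * ((2 ^ 11 : ℂ) • Dl) = D2 := by
  funext τ
  have := ModularForm.discriminant_ne_zero τ
  simp only [Pi.mul_apply, Pi.smul_apply, smul_eq_mul, y, D2_apply]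
  field_simp

theorem y_inv (γ : SL(2, ℤ)) (h : (2 : ℤ) ∣ γ 1 0) (τ : ℍ) : y (γ • τ) = y τ := by
  have h1 := congrFun (D2_slash γ h) τ
  have h2 := congrFun (d_slash γ) τ
  have h3 := congrFun y_mul τ
  have h4 := congrFun y_mul (γ • τ)
  rw [ModularForm.SL_slash_apply] at h1 h2
  simp only [Pi.mul_apply, Pi.smul_apply, smul_eq_mul] at h3 h4
  have h5 : (2 ^ 11 : ℂ) * Dl τ ≠ 0 :=
    mul_ne_zero (by norm_num) (ModularForm.discriminant_ne_zero τ)
  apply mul_right_cancel₀ h5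
  rw [h3, ← h1, ← h4, ← h2]
  ring

theorem y_mem : inc y y_hol ∈ MF G0 := by
  have h2 : ∀ γ ∈ G0, (2 : ℤ) ∣ γ 1 0 := fun γ hγ => by
    rw [CongruenceSubgroup.Gamma0_mem] at hγ
    have := (ZMod.intCast_zmod_eq_zero_iff_dvd (γ 1 0) 4).1 hγ
    exact (show (2 : ℤ) ∣ ((4 : ℕ) : ℤ) by norm_num).trans this
  have hg : IsMF G0 12 D2 := D2_bdd.isMF fun γ hγ => D2_slash γ (h2 γ hγ)
  have hh : IsMF G0 12 ((2 ^ 11 : ℂ) • Dl) := (d_bdd.isMF fun γ _ => d_slash γ).smul _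
  have h0 : ((2 ^ 11 : ℂ) • Dl) ≠ 0 := fun h =>
    mul_ne_zero (by norm_num) (ModularForm.discriminant_ne_zero I) (congrFun h I)
  refine ⟨12, D2, _, hg, hh, h0, ?_⟩
  rw [eq_div_iff fun h => h0 ((inc_eq_zero _).1 h), ← inc_mul]
  exact inc_congr _ y_mul

theorem periodic {f : ℍ → ℂ} (h : ∀ τ, f (ModularGroup.T • τ) = f τ) :
    Function.Periodic (f ∘ ofComplex) ((1 : ℝ) : ℂ) := by
  intro z
  by_cases hz : 0 < z.im
  · have e1 : ofComplex (z + (1 : ℝ)) = (1 : ℝ) +ᵥ (⟨z, hz⟩ : ℍ) := by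
      rw [ofComplex_apply_of_im_pos (by simpa using hz)]
      ext
      simp [UpperHalfPlane.coe_vadd, add_comm]
    simp only [Function.comp_apply]
    rw [e1, ofComplex_apply_of_im_pos hz, ← modular_T_smul]
    exact h _
  · simp only [Function.comp_apply]
    rw [ofComplex_apply_of_im_nonpos (by simpa using hz),
      ofComplex_apply_of_im_nonpos (not_lt.1 hz)]

theorem y_per : Function.Periodic (y ∘ ofComplex) ((1 : ℝ) : ℂ) :=
  periodic (y_inv _ (by simp [ModularGroup.T]))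

theorem exq_div {m : ℤ} {F : ℂ⟦X⟧} {f : ℍ → ℂ} :
    H236.Exq 1 m (X * F) f ↔ H236.Exq 1 (m + 1) F f := by
  have key : ∀ (q v : ℂ), q ≠ 0 → (H236.Ev (X * F) q (v * q) ↔ H236.Ev F q v) := by
    intro q v hq
    unfold H236.Ev
    rw [← hasSum_nat_add_iff' 1]
    simp only [coeff_succ_X_mul, Finset.range_one, Finset.sum_singleton, coeff_zero_X_mul,
      zero_mul, sub_zero, pow_succ, ← mul_assoc]
    exact hasSum_mul_right_iff hq
  unfold H236.Exq
  refine Filter.eventually_congr (Eventually.of_forall fun τ => ?_)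
  have hq := H236.qne 1 τ
  rw [← key _ _ hq, neg_add, zpow_add₀ hq, zpow_neg_one, mul_assoc, mul_assoc, inv_mul_cancel₀ hq,
    mul_one]

theorem exists_D0 : ∃ D0 : ℤ⟦X⟧, DZ = X * D0 ∧ constantCoeff D0 = 1 := by
  have h0 : constantCoeff DZ = 0 := by
    have a : constantCoeff gs = 0 := by simp [gs, ← coeff_zero_eq_constantCoeff_apply]
    have b : ∀ k, constantCoeff (sg k) = 0 := fun k => by
      simp [sg, ← coeff_zero_eq_constantCoeff_apply]
    simp [DZ, a, b]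
  obtain ⟨D0, h⟩ := X_dvd_iff.2 h0
  refine ⟨D0, h, ?_⟩
  have h1 := ModularForm.discriminant_qExpansion_coeff_one
  have h2 : qExpansion 1 Dl = toC DZ := qExp_disc
  rw [h2, h, toC, coeff_map, coeff_succ_X_mul, coeff_zero_eq_constantCoeff_apply,
    eq_intCast] at h1
  exact_mod_cast h1

theorem exq_d : H236.Exq 1 0 (toC DZ) Dl := by
  have h2 : qExpansion 1 Dl = toC DZ := qExp_disc
  have := H236.exq_qExpansion (N := 1) (f := Dl) one_ne_zero
    (by
      rw [Nat.cast_one]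
      exact SlashInvariantFormClass.periodic_comp_ofComplex
        (CuspForm.discriminant : CuspForm 𝒮ℒ 12) one_mem_strictPeriods_SL)
    d_hol ModularForm.discriminant_isZeroAtImInfty.isBoundedAtImInfty
  rwa [Nat.cast_one, h2] at this

theorem exists_x : ∃ x : ℤ⟦X⟧, coeff 0 x = 0 ∧ coeff 1 x = 1 ∧ H236.Exq 1 0 (toC x) y := by
  obtain ⟨D0, h, h1⟩ := exists_D0
  have hX : toC X = X := map_X _
  have hc : constantCoeff (toC D0) ≠ 0 := by
    rw [← coeff_zero_eq_constantCoeff_apply, toC, coeff_map, coeff_zero_eq_constantCoeff_apply, h1]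
    simp
  have e1 : H236.Exq 1 (0 + 1) (toC D0) Dl := by
    rw [← exq_div, ← hX, ← map_mul, ← h]
    exact exq_d
  have e2 := (e1.mulTau two_ne_zero A2_coe).mul (e1.inv one_ne_zero hc).2
  have hi : toC (invOfUnit D0 1) = (toC D0)⁻¹ := by
    rw [PowerSeries.eq_inv_iff_mul_eq_one hc, ← map_mul, mul_comm, mul_invOfUnit D0 1 h1, map_one]
  refine ⟨X * (expand 2 two_ne_zero D0 * invOfUnit D0 1), by simp, ?_, ?_⟩
  · rw [coeff_succ_X_mul, coeff_zero_eq_constantCoeff_apply, map_mul, constantCoeff_expand, h1,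
      constantCoeff_invOfUnit]
    simp
  · rw [map_mul, map_mul, hX, exq_div, hi, toC, PowerSeries.map_expand]
    exact e2

end Xf

theorem xf : XF := by
  obtain ⟨x, h0, h1, h⟩ := Xf.exists_x
  have hb : IsBoundedAtImInfty Xf.y := (B4.exq_tendsto one_ne_zero h).isBigO_one ℝ
  have hq : qExpansion 1 Xf.y = toC x := by
    have := H236.exq_qExpansion (N := 1) (f := Xf.y) one_ne_zero
      (by rw [Nat.cast_one]; exact Xf.y_per) Xf.y_hol hb
    rw [Nat.cast_one] at this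
    exact this.unique one_ne_zero h
  have hs : ∀ τ : ℍ, HasSum (fun n => coeff n (toC x) * Function.Periodic.qParam 1 τ ^ n)
      (Xf.y τ) := fun τ => by
    rw [← hq]
    exact hasSum_qExpansion one_pos Xf.y_per Xf.y_hol hb τ
  refine ⟨x, Xf.y, Xf.y_hol, h0, h1, fun τ => ?_, Xf.y_mem, Xf.y_inv, fun γ hγ => ⟨?_, ?_⟩⟩
  · simpa [toC] using hs τ
  · intro ρ r0 r1
    have := hasSum_qExpansion_of_norm_lt one_pos Xf.y_per Xf.y_hol hb (q := (ρ : ℂ))
      (by rwa [Complex.norm_real, Real.norm_of_nonneg r0])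
    rw [hq] at this
    have := summable_norm_iff.2 this.summable
    simpa [toC, abs_of_nonneg r0] using this
  · intro τ hτ _ _
    let g : SL(2, ℤ) := ⟨!![γ.a, γ.b; γ.c, γ.d], by rw [Matrix.det_fin_two_of]; exact γ.det⟩
    have ev : ∀ z : ℍ, B.ev (x.map (Int.castRingHom ℂ)) (B.qq z) = Xf.y z := fun z => by
      rw [← (hs z).tsum_eq, B.ev, B.qq, Function.Periodic.qParam, Complex.ofReal_one, div_one]
      rfl
    have e : γ.act τ = ((g • (⟨τ, hτ⟩ : ℍ) : ℍ) : ℂ) := by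
      rw [UpperHalfPlane.specialLinearGroup_apply]
      simp [g, B.Gam.act]
    rw [e, ev, Xf.y_inv g hγ]
    exact (ev ⟨τ, hτ⟩).symm

end Vale.Agent.P027M.Fo
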