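import Vale.Agent.P027M.M.Defs
import Vale.Agent.P027M.O
import Vale.Agent.P027M.B.Defs

/-! # P027 route M, block FORM: from eigenclasses modulo `3 ^ j` to the depleted eigenform
(statements, owner helper25) -/

set_option linter.all false

open UpperHalfPlane
open scoped MatrixGroups ModularForm Real PowerSeries ComplexConjugate

noncomputable section

namespace Vale.Agent.P027M.Fo

open Vale.Agent.P022.H218.L3 Vale.Agent.P022.H231.L3 Vale.Agent.P027M.M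

/-! ### homomorphisms -/

/-- additive on `Γ`, zero on the parabolic elements -/
structure Par {A : Type} [AddCommGroup A] (Γ : Subgroup SL(2, ℤ)) (c : SL(2, ℤ) → A) : Prop where
  add : ∀ γ ∈ Γ, ∀ δ ∈ Γ, c (γ * δ) = c γ + c δ
  par : ∀ (g : SL(2, ℤ)) (h : ℤ), g * ModularGroup.T ^ h * g⁻¹ ∈ Γ →
    c (g * ModularGroup.T ^ h * g⁻¹) = 0

/-- `c' = T_l c` on `Γ` -/
def IsT {A : Type} [AddCommGroup A] (N : ℕ) (Γ : Subgroup SL(2, ℤ)) (l : ℕ)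
    (c c' : SL(2, ℤ) → A) : Prop :=
  ∀ d : SL(2, ℤ), IsDel 1 N l d → ∀ γ ∈ Γ,
    ∀ (s : Equiv.Perm (Option (Fin l))) (g : Option (Fin l) → SL(2, ℤ)), (∀ i, g i ∈ Γ) →
      (∀ i, al 1 l d i * (γ : M2) = (g i : M2) * al 1 l d (s i)) → ∑ i, c (g i) = c' γ

/-- the level structure -/
structure LvH (N : ℕ) (H : Subgroup (ZMod N)ˣ) : Prop where
  lv : Lv N
  neg : -1 ∈ H
  four : ∀ a, a ^ 4 ∈ H

/-- **the input**: eigenclasses modulo `3 ^ j` of unbounded order, for the primes outside `B` -/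
def EigH (S : Sys) (H : Subgroup (ZMod S.N)ˣ) (B : ℕ) : Prop :=
  ∀ v : ℕ, ∃ (j : ℕ) (φ : La j →+ (SL(2, ℤ) → ZMod (3 ^ j))), (∀ z, Par (GH S.N H) (φ z)) ∧
    (∀ l : ℕ, l.Prime → ¬ l ∣ B → ∀ z, IsT S.N (GH S.N H) l (φ z) (φ (S.a iO wO l * z))) ∧
    ∃ z, ∃ γ ∈ GH S.N H, 3 ^ v • φ z γ ≠ 0

/-- an eigenclass with values in `ℤ[i, √3]` -/
structure EigZ (N : ℕ) (Γ : Subgroup SL(2, ℤ)) (B : ℕ) (a : ℕ → QO ℤ) (u : SL(2, ℤ) → QO ℤ) :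
    Prop where
  par : Par Γ u
  hec : ∀ l : ℕ, l.Prime → ¬ l ∣ B → IsT N Γ l u fun γ => a l * u γ
  ne : ∃ γ ∈ Γ, u γ ≠ 0

/-- an even character modulo `N` with values in the fourth roots of unity -/
structure Chr (N : ℕ) (e : ℤ → GaussianInt) : Prop where
  per : ∀ a b : ℤ, (N : ℤ) ∣ a - b → e a = e b
  one : e 1 = 1
  neg : e (-1) = 1
  four : ∀ a : ℤ, IsCoprime a (N : ℤ) → e a ^ 4 = 1

/-- the diamond operators act through `e` -/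
def Dia {R : Type} [CommRing R] (N : ℕ) (Γ : Subgroup SL(2, ℤ)) (e : ℤ → R) (u : SL(2, ℤ) → R) :
    Prop :=
  ∀ δ : SL(2, ℤ), (N : ℤ) ∣ δ 1 0 → ∀ γ ∈ Γ, u (δ * γ * δ⁻¹) = e (δ 1 1) * u γ

/-! ### forms -/

/-- the expansion at infinity -/
def Ex (a : ℕ → ℂ) (f : ℍ → ℂ) : Prop :=
  ∀ τ : ℍ, HasSum (fun n => a n * Function.Periodic.qParam 1 τ ^ n) (f τ)

/-- all translates of weight two vanish at infinity -/
def Zer (f : ℍ → ℂ) : Prop := ∀ γ : SL(2, ℤ), IsZeroAtImInfty (f ∣[(2 : ℤ)] γ)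

/-- cusp forms of weight two, level `N`, character `e` -/
structure Cusp (N : ℕ) (e : ℤ → ℂ) (f : ℍ → ℂ) : Prop where
  hol : f ∈ Hol
  law : ∀ γ : SL(2, ℤ), (N : ℤ) ∣ γ 1 0 → f ∣[(2 : ℤ)] γ = e (γ 1 1) • f
  zer : Zer f

/-- `a` is the sequence of coefficients of a cusp form -/
def Sq (N : ℕ) (e : ℤ → ℂ) (a : ℕ → ℂ) : Prop := ∃ f, Cusp N e f ∧ Ex a f

/-- `e` is periodic and normalised -/
structure Pe (N : ℕ) (e : ℤ → ℂ) : Prop where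
  pos : 0 < N
  per : ∀ a b : ℤ, (N : ℤ) ∣ a - b → e a = e b
  one : e 1 = 1

/-- the Hecke operator on coefficients -/
def tp (e : ℤ → ℂ) (p : ℕ) (a : ℕ → ℂ) (n : ℕ) : ℂ :=
  a (n * p) + if p ∣ n then e p * p * a (n / p) else 0

/-- the Hecke operator on functions -/
def Tf {l : ℕ} (h0 : 0 < l) (d : SL(2, ℤ)) (f : ℍ → ℂ) : ℍ → ℂ := ∑ i, sl h0 1 d 2 f i

/-- `F` is a primitive of `2 π i f` -/
def Prim (f F : ℍ → ℂ) : Prop :=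
  ∀ τ : ℍ, HasDerivAt (F ∘ ofComplex) (2 * π * Complex.I * f τ) (τ : ℂ)

/-- the eigenspace for the primes outside `B` -/
def Wl (N : ℕ) (e : ℤ → ℂ) (B : ℕ) (lam : ℕ → ℂ) (a : ℕ → ℂ) : Prop :=
  Sq N e a ∧ ∀ l : ℕ, l.Prime → ¬ l ∣ B → tp e l a = lam l • a

/-- the character modulo four -/
def c4 (n : ℕ) : ℂ := if n % 4 = 1 then 1 else if n % 4 = 3 then -1 else 0

/-- the commutator of `(1 1; 0 1)` and `(1 0; N 1)` -/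
def gam (N : ℕ) (hN : 0 < N) : B.Gam where
  a := 1 + N + N ^ 2
  b := -N
  c := N ^ 2
  d := 1 - N
  det := by ring
  c_ne := by positivity

/-- **the output**: `c n = a n` for `n ≡ 1`, `c n = a n / √3` for `n ≡ 3` modulo four -/
structure FormS (N : ℕ) (e : ℤ → GaussianInt) (c : ℕ → GaussianInt) : Prop where
  one : c 1 = 1
  dep : ∀ n : ℕ, ¬ n.Coprime N → c n = 0
  hec : ∀ p : ℕ, p.Prime → ¬ p ∣ N → ∀ n : ℕ,
    c (n * p) + (if p ∣ n then e p * p * c (n / p) else 0) =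
      (if p % 4 = 3 ∧ n % 4 = 3 then 3 else 1) * c p * c n
  g1 : Sq N (fun d => (e d : ℂ)) fun n => if n % 4 = 1 then (c n : ℂ) else 0
  g3 : Sq N (fun d => (e d : ℂ)) fun n => if n % 4 = 3 then (c n : ℂ) else 0
  bd : ∀ p : ℕ, p.Prime → (c p).norm ≤ 4 * (p : ℤ) ^ 2

/-- the Eichler-Shimura decomposition in the form used here -/
def ESCf : Prop := ∀ (N : ℕ) (H : Subgroup (ZMod N)ˣ), Lv N → -1 ∈ H →
  (∀ φ : SL(2, ℤ) → ℂ, (∀ γ ∈ GH N H, ∀ δ ∈ GH N H, φ (γ * δ) = φ γ + φ δ) →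
    ∃ f g F G : ℍ → ℂ, IsMF (GH N H) 2 f ∧ IsMF (GH N H) 2 g ∧ Zer g ∧ Prim f F ∧ Prim g G ∧
      ∀ γ ∈ GH N H, ∀ τ : ℍ, φ γ = F (γ • τ) - F τ + conj (G (γ • τ) - G τ)) ∧
  ∀ f g F G : ℍ → ℂ, IsMF (GH N H) 2 f → IsMF (GH N H) 2 g → Zer g → Prim f F → Prim g G →
    (∀ γ ∈ GH N H, ∀ τ : ℍ, F (γ • τ) - F τ + conj (G (γ • τ) - G τ) = 0) → f = 0 ∧ g = 0

/-- **FORM** -/
def FORM : Prop := ∀ (S : Sys) (H : Subgroup (ZMod S.N)ˣ) (B : ℕ), LvH S.N H → S.N ∣ B → B ≠ 0 →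
  EigH S H B → ∃ (e : ℤ → GaussianInt) (c : ℕ → GaussianInt), Chr S.N e ∧ FormS (S.N ^ 3) e c ∧
    ∀ p : ℕ, p.Prime → ¬ p ∣ B → c p = S.b p

/-! ### the rows -/

/-- the coset lemma (`M.STEP`) -/
def STP : Prop := ∀ (N l : ℕ), 0 < N → l.Prime →
  (¬ l ∣ N → ∀ d, IsDel 1 N l d → ∀ γ : SL(2, ℤ), (N : ℤ) ∣ γ 1 0 →
    ∃ (s : Equiv.Perm (Option (Fin l))) (g : Option (Fin l) → SL(2, ℤ)), ∀ i,
      al 1 l d i * (γ : M2) = (g i : M2) * al 1 l d (s i) ∧ (N : ℤ) ∣ g i 1 0 ∧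
        (N : ℤ) ∣ g i 1 1 - γ 1 1) ∧
  (l ∣ N → ∀ γ : SL(2, ℤ), (N : ℤ) ∣ γ 1 0 →
    ∃ (s : Equiv.Perm (Fin l)) (g : Fin l → SL(2, ℤ)), ∀ i,
      al 1 l 1 (some i) * (γ : M2) = (g i : M2) * al 1 l 1 (some (s i)) ∧ (N : ℤ) ∣ g i 1 0 ∧
        (N : ℤ) ∣ g i 1 1 - γ 1 1)

/-- [Fo.CHAR0] -/
def CHAR0 : Prop := ∀ (S : Sys) (H : Subgroup (ZMod S.N)ˣ) (B : ℕ), 0 < S.N → EigH S H B →
  ∃ u, EigZ S.N (GH S.N H) B (S.a iO wO) u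

/-- [Fo.DIA] -/
def DIA : Prop := ∀ (N : ℕ) (H : Subgroup (ZMod N)ˣ) (B : ℕ) (a : ℕ → QO ℤ)
  (u : SL(2, ℤ) → QO ℤ), LvH N H → N ∣ B → EigZ N (GH N H) B a u →
  ∃ e u', Chr N e ∧ EigZ N (GH N H) B a u' ∧ Dia N (GH N H) (fun d => gi iO (e d)) u'

/-- [Fo.EXP] expansions -/
structure EXP : Prop where
  ex : ∀ N e f, Pe N e → Cusp N e f → ∃ a, Ex a f
  uniq : ∀ a b f, Ex a f → Ex b f → a = b
  zero : ∀ N e a, Sq N e a → a 0 = 0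
  zer : ∀ f, Zer f → ∀ (A : M2) (hA : 0 < A.det), Zer (f ∣[(2 : ℤ)] gl A hA)
  add : ∀ N e a b, Sq N e a → Sq N e b → Sq N e (a + b)
  smul : ∀ N e (z : ℂ) a, Sq N e a → Sq N e (z • a)
  up : ∀ N M e a, N ∣ M → Sq N e a → Sq M e a

/-- [Fo.BND] Hecke's bound -/
def BND : Prop := ∀ N e a, Pe N e → Sq N e a → ∃ C : ℝ, ∀ n : ℕ, ‖a n‖ ≤ C * n

/-- [Fo.HEC] the Hecke operators on forms -/
def HEC : Prop := ∀ N e f a (p : ℕ) (hp : p.Prime), Pe N e → Cusp N e f → Ex a f →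
  (¬ p ∣ N → ∀ d, IsDel 1 N p d → Cusp N e (Tf hp.pos d f) ∧ Ex (tp e p a) (Tf hp.pos d f)) ∧
  (p ∣ N → Sq N e fun n => a (n * p))

/-- [Fo.TWI] twists by periodic functions -/
def TWI : Prop := ∀ N e a (m : ℕ) (θ : ZMod m → ℂ), Pe N e → 0 < m → Sq N e a →
  (∀ (u : (ZMod m)ˣ) (x : ZMod m), θ ((u : ZMod m) ^ 2 * x) = θ x) →
  Sq (N * m ^ 2) e fun n => θ n * a n

/-- [Fo.STA] complex conjugation of the coefficients -/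
def STA : Prop := ∀ N e a, Sq N e a → Sq N (fun d => conj (e d)) fun n => conj (a n)

/-- [Fo.LEM] a form in `q ^ p`, `p` prime to the level, vanishes -/
def LEM : Prop := ∀ N e a (p : ℕ), Pe N e → Sq N e a → p.Prime → ¬ p ∣ N →
  (∀ n, ¬ p ∣ n → a n = 0) → a = 0

/-- [Fo.SM1] -/
def SM1 : Prop := ∀ N e a (B : ℕ), Pe N e → Sq N e a → B ≠ 0 →
  (∀ n : ℕ, n.Coprime (N * B) → a n = 0) → ∀ n : ℕ, n.Coprime N → a n = 0

/-- [Fo.SMO] strong multiplicity one -/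
def SMO : Prop := ∀ N e (B : ℕ) lam, Pe N e → N ∣ B → B ≠ 0 →
  (∀ a, Wl N e B lam a → a ≠ 0 → ∃ a0, Wl N e B lam a0 ∧ a0 1 = 1) ∧
  (∀ a0, Wl N e B lam a0 → a0 1 = 1 → ∀ b, Wl N e B lam b →
    ∀ p : ℕ, p.Prime → ¬ p ∣ N → tp e p b = a0 p • b) ∧
  (4 ∣ N → ∀ a0 a1, Wl N e B lam a0 → Wl N e B (fun l => c4 l * lam l) a1 → a0 1 = 1 → a1 1 = 1 →
    ∀ n : ℕ, n.Coprime N → a1 n = c4 n * a0 n)

/-- [Fo.DEC] from parabolic classes to pairs of cusp forms -/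
def DEC : Prop := ∀ (N : ℕ) (H : Subgroup (ZMod N)ˣ) (e : ℤ → ℂ) (u : SL(2, ℤ) → ℂ), Lv N →
  -1 ∈ H → Pe N e → Par (GH N H) u → Dia N (GH N H) e u →
  ∃ a b, Sq N e a ∧ Sq N e b ∧ ((∃ γ ∈ GH N H, u γ ≠ 0) → a ≠ 0 ∨ b ≠ 0) ∧
    ∀ p : ℕ, p.Prime → ¬ p ∣ N → ∀ z : ℂ,
      (IsT N (GH N H) p u (fun γ => z * u γ) ↔ tp e p a = z • a ∧ tp e p b = z • b)

/-- [Fo.RAT] the eigenvalues at all primes outside the level -/
def RAT : Prop := ∀ (S : Sys) (H : Subgroup (ZMod S.N)ˣ) (B : ℕ) (e : ℤ → GaussianInt)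
  (u : SL(2, ℤ) → QO ℤ), LvH S.N H → S.N ∣ B → B ≠ 0 → Chr S.N e →
  EigZ S.N (GH S.N H) B (S.a iO wO) u → Dia S.N (GH S.N H) (fun d => gi iO (e d)) u →
  ∃ (b : ℕ → GaussianInt) (a : ℕ → ℂ), (∀ p : ℕ, p.Prime → ¬ p ∣ B → b p = S.b p) ∧ a 1 = 1 ∧
    Wl S.N (fun d => (e d : ℂ)) S.N
      (fun p => if p % 4 = 1 then (b p : ℂ) else (√3 : ℝ) * (b p : ℂ)) a

/-- [Fo.OUT] the depleted form -/
def OUT : Prop := ∀ (N : ℕ) (e : ℤ → GaussianInt) (b : ℕ → GaussianInt) (a : ℕ → ℂ), Lv N →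
  Chr N e → a 1 = 1 →
  Wl N (fun d => (e d : ℂ)) N (fun p => if p % 4 = 1 then (b p : ℂ) else (√3 : ℝ) * (b p : ℂ)) a →
  ∃ c, FormS (N ^ 3) e c ∧ ∀ p : ℕ, p.Prime → ¬ p ∣ N → c p = b p

/-- [Fo.XF] the function `Δ(2τ) / Δ(τ)` -/
def XF : Prop := ∃ (x : ℤ⟦X⟧) (y : ℍ → ℂ) (hy : y ∈ Hol), PowerSeries.coeff 0 x = 0 ∧
  PowerSeries.coeff 1 x = 1 ∧ Ex (fun n => ((PowerSeries.coeff n x : ℤ) : ℂ)) y ∧
  inc y hy ∈ MF G0 ∧ (∀ γ : SL(2, ℤ), (2 : ℤ) ∣ γ 1 0 → ∀ τ : ℍ, y (γ • τ) = y τ) ∧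
  ∀ γ : B.Gam, (2 : ℤ) ∣ γ.c → B.IsHol γ 1 (x.map (Int.castRingHom ℂ))

/-- [Fo.AN1] the primitive is invariant under the commutator -/
def AN1 : Prop := ∀ N e a (h : Pe N e), Sq N e a →
  B.IsHol (gam N h.pos) 1 (PowerSeries.mk fun n => a n / n)

/-- [Fo.ANF] the inputs of B1 -/
def ANF : Prop := ∀ (N : ℕ) (hN : Lv N) e c, Chr N e → FormS N e c →
  ∀ x : ℤ⟦X⟧, (∀ γ : B.Gam, (2 : ℤ) ∣ γ.c → B.IsHol γ 1 (x.map (Int.castRingHom ℂ))) →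
  ∀ (l0 l1 l2 : GaussianInt) (K : Type) [Field K] (φ : GaussianInt →+* K),
    B.AN (gam N hN.pos) (fun j n => φ (B.hb l0 l1 l2 c j n)) x

def Spec_DIA : Prop := STP → DIA
def Spec_BND : Prop := EXP → BND
def Spec_HEC : Prop := STP → EXP → HEC
def Spec_TWI : Prop := EXP → TWI
def Spec_LEM : Prop := EXP → LEM
def Spec_SM1 : Prop := EXP → TWI → LEM → SM1
def Spec_SMO : Prop := EXP → HEC → TWI → SM1 → SMO
def Spec_DEC : Prop := ESCf → STP → EXP → HEC → STA → DEC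
def Spec_RAT : Prop := STP → DEC → SMO → RAT
def Spec_OUT : Prop := EXP → BND → TWI → OUT
def Spec_AN1 : Prop := EXP → B.HOL → AN1
def Spec_ANF : Prop := EXP → STA → AN1 → ANF

theorem Chr.up {N M : ℕ} {e : ℤ → GaussianInt} (h : Chr N e) (hM : N ∣ M) : Chr M e :=
  ⟨fun a b k => h.per a b ((Int.natCast_dvd_natCast.2 hM).trans k), h.one, h.neg,
    fun a k => h.four a (k.of_isCoprime_of_dvd_right (Int.natCast_dvd_natCast.2 hM))⟩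

theorem Chr.pe {N : ℕ} {e : ℤ → GaussianInt} (h : Chr N e) (hN : 0 < N) :
    Pe N fun d => (e d : ℂ) :=
  ⟨hN, fun a b k => by rw [h.per a b k], by rw [h.one, map_one]⟩

theorem Pe.up {N M : ℕ} {e : ℤ → ℂ} (h : Pe N e) (hM : N ∣ M) (h0 : 0 < M) : Pe M e :=
  ⟨h0, fun a b k => h.per a b ((Int.natCast_dvd_natCast.2 hM).trans k), h.one⟩

theorem form_of (h1 : CHAR0) (h2 : DIA) (h3 : RAT) (h4 : OUT) : FORM := by
  intro S H B hL hB hB0 hE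
  obtain ⟨u, hu⟩ := h1 S H B hL.lv.pos hE
  obtain ⟨e, u', he, hu', hD⟩ := h2 _ H B _ u hL hB hu
  obtain ⟨b, a, hb, ha, hW⟩ := h3 S H B e u' hL hB hB0 he hu' hD
  obtain ⟨c, hc, hcb⟩ := h4 _ e b a hL.lv he ha hW
  exact ⟨e, c, he, hc, fun p hp k => (hcb p hp fun k' => k (k'.trans hB)).trans (hb p hp k)⟩

/-- the congruence used by B1 -/
theorem heckeMod {S : Sys} {N D : ℕ} {e : ℤ → GaussianInt} {c : ℕ → GaussianInt}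
    (h : FormS N e c) (hN : N ≠ 0) (hB : D ≠ 0) (hb : ∀ p : ℕ, p.Prime → ¬ p ∣ D → c p = S.b p) :
    B.HeckeMod S c := by
  refine ⟨N * D, mul_ne_zero hN hB, fun p hp k n => ?_⟩
  have h1 := h.hec p hp (fun k' => k (k'.mul_right _)) n
  rw [← hb p hp fun k' => k (k'.mul_left _), ← h1]
  split_ifs
  · exact ⟨-(e p * c (n / p)), by ring⟩
  · simp

end Vale.Agent.P027M.Fo
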