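import Vale.Agent.P027M.Fo.Defs
import Vale.Agent.P027M.ES.Prim
import Vale.Agent.P027M.B.Hol

/-! # P027 route M, block FORM: the primitive is invariant under the commutator -/

set_option autoImplicit false

open UpperHalfPlane Filter Topology
open scoped MatrixGroups ModularForm Real PowerSeries

noncomputable section

namespace Vale.Agent.P027M.Fo

namespace An1

theorem qq_eq (z : ℂ) : B.qq z = Function.Periodic.qParam 1 z := by
  simp [B.qq, Function.Periodic.qParam]

theorem qq_lt (τ : ℍ) : ‖B.qq τ‖ < 1 := by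
  rw [qq_eq]
  exact UpperHalfPlane.norm_qParam_lt_one 1 τ |>.trans_eq' (by simp)

theorem conv {a : ℕ → ℂ} {f : ℍ → ℂ} (h : Ex a f) : B.Conv 1 (PowerSeries.mk a) := by
  refine B.Hol.conv_of fun q hq => ?_
  simp only [PowerSeries.coeff_mk]
  by_cases h0 : q = 0
  · subst h0
    exact summable_of_ne_finset_zero (s := {0}) fun n hn => by
      rw [zero_pow (by simpa using hn), mul_zero]
  · have h1 := (h ⟨Function.Periodic.invQParam 1 q,
      Function.Periodic.im_invQParam_pos_of_norm_lt_one one_pos hq h0⟩).summable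
    have h2 := Function.Periodic.qParam_right_inv (h := 1) one_ne_zero h0
    simpa only [coe_mk, h2] using h1

theorem conv' {a : ℕ → ℂ} {f : ℍ → ℂ} (h : Ex a f) :
    B.Conv 1 (PowerSeries.mk fun n => a n / n) := fun ρ h0 h1 => by
  refine Summable.of_nonneg_of_le (fun n => by positivity) (fun n => ?_) (conv h ρ h0 h1)
  refine mul_le_mul_of_nonneg_right ?_ (by positivity)
  simp only [PowerSeries.coeff_mk, norm_div, Complex.norm_natCast]
  rcases Nat.eq_zero_or_pos n with rfl | hn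
  · simp
  · exact div_le_self (norm_nonneg _) (by exact_mod_cast hn)

/-- the sum of the integrated series is a primitive -/
theorem prim {a : ℕ → ℂ} {f : ℍ → ℂ} (h : Ex a f) (h0 : a 0 = 0) :
    ES.Prim f fun τ => B.ev (PowerSeries.mk fun n => a n / n) (B.qq τ) := fun τ => by
  obtain ⟨h1, h2⟩ := B.Hol.diff (conv' h)
  have e : PowerSeries.X * PowerSeries.derivative ℂ (PowerSeries.mk fun n => a n / n) =
      PowerSeries.mk a := by
    ext n
    rcases n with _ | n
    · simp [h0]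
    · rw [PowerSeries.coeff_succ_X_mul, PowerSeries.coeff_derivative, PowerSeries.coeff_mk,
        PowerSeries.coeff_mk]
      have : ((n + 1 : ℕ) : ℂ) ≠ 0 := Nat.cast_ne_zero.2 n.succ_ne_zero
      push_cast at this ⊢
      field_simp
  have h3 := (B.Hol.mul (B.Hol.conv_X 1).1 h1).2 _ (qq_lt τ)
  rw [e, (B.Hol.conv_X 1).2] at h3
  have h4 : B.ev (PowerSeries.mk a) (B.qq τ) = f τ := by
    simp only [B.ev, PowerSeries.coeff_mk, qq_eq]
    exact (h τ).tsum_eq
  have h5 : HasDerivAt B.qq (B.qq τ * (2 * π * Complex.I)) (τ : ℂ) := by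
    have := ((hasDerivAt_id (τ : ℂ)).const_mul (2 * π * Complex.I)).cexp
    rw [mul_one] at this
    exact this
  refine (((h2 _ (qq_lt τ)).comp (τ : ℂ) h5).congr_deriv ?_).congr_of_eventuallyEq ?_
  · rw [← h4, h3]
    ring
  · filter_upwards [isOpen_upperHalfPlaneSet.mem_nhds τ.im_pos] with z hz
    simp only [Function.comp_apply, ofComplex_apply_of_im_pos hz, coe_mk]

/-- the matrix `(1 0; N 1)` -/
def UN (N : ℕ) : SL(2, ℤ) := ⟨!![1, 0; (N : ℤ), 1], by simp [Matrix.det_fin_two]⟩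

theorem comm (N : ℕ) :
    ((ModularGroup.T * UN N * ModularGroup.T⁻¹ * (UN N)⁻¹ : SL(2, ℤ)) : M.M2) =
      !![1 + (N : ℤ) + (N : ℤ) ^ 2, -(N : ℤ); (N : ℤ) ^ 2, 1 - (N : ℤ)] := by
  have h1 : ((UN N : SL(2, ℤ)) : M.M2) = !![1, 0; (N : ℤ), 1] := rfl
  rw [Matrix.SpecialLinearGroup.coe_mul, Matrix.SpecialLinearGroup.coe_mul,
    Matrix.SpecialLinearGroup.coe_mul, Matrix.SpecialLinearGroup.coe_inv,
    Matrix.SpecialLinearGroup.coe_inv, h1, ModularGroup.coe_T, Matrix.adjugate_fin_two_of,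
    Matrix.adjugate_fin_two_of, Matrix.mul_fin_two, Matrix.mul_fin_two, Matrix.mul_fin_two]
  ext i j
  fin_cases i <;> fin_cases j <;> simp <;> ring

end An1

open An1

theorem an1 : Spec_AN1 := by
  rintro hE - N e a h ha
  have h0 := hE.zero N e a ha
  obtain ⟨f, hf, hx⟩ := ha
  refine ⟨conv' hx, fun z hz _ _ => ?_⟩
  have hP := prim hx h0
  have hT : f ∣[(2 : ℤ)] ModularGroup.T = f := by
    rw [hf.law _ (by simp [ModularGroup.coe_T])]
    simp [ModularGroup.coe_T, h.one]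
  have hU : f ∣[(2 : ℤ)] UN N = f := by
    rw [hf.law _ (by simp [UN])]
    simp [UN, h.one]
  let τ : ℍ := ⟨z, hz⟩
  have e1 := hP.period hT (UN N • ModularGroup.T⁻¹ • (UN N)⁻¹ • τ)
    (ModularGroup.T⁻¹ • (UN N)⁻¹ • τ)
  have e2 := hP.period hU (ModularGroup.T⁻¹ • (UN N)⁻¹ • τ) ((UN N)⁻¹ • τ)
  rw [smul_inv_smul] at e1 e2
  have e3 : (gam N h.pos).act z =
      ((ModularGroup.T • UN N • ModularGroup.T⁻¹ • (UN N)⁻¹ • τ : ℍ) : ℂ) := by
    rw [← mul_smul, ← mul_smul, ← mul_smul, coe_specialLinearGroup_apply, comm]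
    simp [B.Gam.act, gam, τ]
  rw [e3]
  show _ = B.ev _ (B.qq τ)
  linear_combination e1 + e2

end Vale.Agent.P027M.Fo
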