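import Vale.Agent.P027M.Fo.Defs

/-! # P027 route M, block FORM: row ANF -/

set_option linter.all false

open UpperHalfPlane
open scoped MatrixGroups ModularForm PowerSeries ComplexConjugate

noncomputable section

namespace Vale.Agent.P027M.Fo

open Vale.Agent.P027M.M

namespace Anf

theorem hom_cases (ψ : GaussianInt →+* ℂ) :
    (∀ z, ψ z = (z : ℂ)) ∨ ∀ z, ψ z = conj (z : ℂ) := by
  have h1 : ψ Zsqrtd.sqrtd * ψ Zsqrtd.sqrtd = -1 := by
    rw [← map_mul, Zsqrtd.dmuld]
    simp
  have h2 : (ψ Zsqrtd.sqrtd - Complex.I) * (ψ Zsqrtd.sqrtd + Complex.I) = 0 := by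
    linear_combination h1 - Complex.I_mul_I
  have h3 : GaussianInt.toComplex Zsqrtd.sqrtd = Complex.I := by
    rw [GaussianInt.toComplex_def]
    simp
  rcases mul_eq_zero.1 h2 with h | h
  · left
    have : ψ = GaussianInt.toComplex := Zsqrtd.hom_ext _ _ (by rw [h3]; linear_combination h)
    intro z
    rw [this]
  · right
    have : ψ = (starRingEnd ℂ).comp GaussianInt.toComplex := Zsqrtd.hom_ext _ _ (by
      rw [RingHom.comp_apply, h3, Complex.conj_I]; linear_combination h)
    intro z
    rw [this]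
    rfl

end Anf

theorem anf : Spec_ANF := by
  intro hE hS hA N hN e c he hc x hx l0 l1 l2 K _ φ
  have hp := he.pe hN.pos
  have hp' : Pe N fun d => conj ((e d : GaussianInt) : ℂ) :=
    ⟨hN.pos, fun a b k => by rw [he.per a b k], by rw [he.one, map_one, map_one]⟩
  refine ⟨hx _ ?_, fun σ j => ?_⟩
  · show (2 : ℤ) ∣ (N : ℤ) ^ 2
    have : (2 : ℤ) ∣ (N : ℤ) := (show (2 : ℤ) ∣ ((4 : ℕ) : ℤ) by norm_num).trans
      (Int.natCast_dvd_natCast.2 hN.four)
    exact this.pow two_ne_zero
  have key : ∀ (r : ℕ) (a : ℕ → ℂ) (z : ℂ),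
      Sq N (fun d => (e d : ℂ)) (fun n => if n % 4 = r then (c n : ℂ) else 0) →
      ((∀ n, a n = z * if n % 4 = r then (c n : ℂ) else 0) ∨
        ∀ n, a n = z * conj (if n % 4 = r then (c n : ℂ) else 0)) →
      B.IsHol (gam N hN.pos) 1 (PowerSeries.mk fun n => a n / n) := by
    intro r a z hq h
    rcases h with h | h
    · have e1 : a = z • fun n => if n % 4 = r then (c n : ℂ) else 0 := funext h
      rw [e1]
      exact hA N _ _ hp (hE.smul _ _ z _ hq)
    · have e1 : a = z • fun n => conj (if n % 4 = r then (c n : ℂ) else 0) := funext h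
      rw [e1]
      exact hA N _ _ hp' (hE.smul _ _ z _ (hS _ _ _ hq))
  have hψ := Anf.hom_cases (σ.comp φ)
  simp only [RingHom.comp_apply] at hψ
  have k1 : ∀ (l : GaussianInt) (a : ℕ → GaussianInt),
      (∀ n, a n = if n % 4 = 1 then l * c n else 0) →
      B.IsHol (gam N hN.pos) 1 (PowerSeries.mk fun n => σ (φ (a n)) / n) := by
    intro l a ha
    refine key 1 (fun n => σ (φ (a n))) (σ (φ l)) hc.g1 ?_
    rcases hψ with h | h
    · left
      intro n
      rw [ha]
      split_ifs
      · rw [map_mul, map_mul, h (c n)]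
      · simp
    · right
      intro n
      rw [ha]
      split_ifs
      · rw [map_mul, map_mul, h (c n)]
      · simp
  have k3 : ∀ (l : GaussianInt) (a : ℕ → GaussianInt),
      (∀ n, a n = if n % 4 = 3 then l * star (c n) else 0) →
      B.IsHol (gam N hN.pos) 1 (PowerSeries.mk fun n => σ (φ (a n)) / n) := by
    intro l a ha
    refine key 3 (fun n => σ (φ (a n))) (σ (φ l)) hc.g3 ?_
    rcases hψ with h | h
    · right
      intro n
      rw [ha]
      split_ifs
      · rw [map_mul, map_mul, h (star (c n)), GaussianInt.toComplex_star]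
      · simp
    · left
      intro n
      rw [ha]
      split_ifs
      · rw [map_mul, map_mul, h (star (c n)), GaussianInt.toComplex_star, Complex.conj_conj]
      · simp
  fin_cases j
  · refine k1 l0 _ fun n => ?_
    simp [B.hb]
  · refine k3 l1 _ fun n => ?_
    unfold B.hb
    by_cases h1 : n % 4 = 1
    · rw [if_pos h1, if_neg (by omega)]
      simp
    · rw [if_neg h1]
      simp
  · refine k1 l2 _ fun n => ?_
    simp [B.hb]

end Vale.Agent.P027M.Fo
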