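import Vale.Agent.P027M.Fo.Defs

/-! # P027 route M, block FORM: Hecke's bound (row Fo.BND) -/

set_option linter.all false

open UpperHalfPlane
open scoped MatrixGroups ModularForm Real

noncomputable section

namespace Vale.Agent.P027M.Fo

open Vale.Agent.P022.H218.L3 Vale.Agent.P022.H231.L3 Vale.Agent.P027M.M

namespace Bnd

/-- a cusp form with character as a cusp form for `Γ₁(N)` -/
def toCF {N : ℕ} [NeZero N] {e : ℤ → ℂ} {f : ℍ → ℂ} (h : Pe N e) (hf : Cusp N e f) :
    CuspForm (CongruenceSubgroup.Gamma1 N : Subgroup (GL (Fin 2) ℝ)) 2 where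
  toFun := f
  slash_action_eq' A hA := by
    obtain ⟨γ, hγ, rfl⟩ := hA
    obtain ⟨-, h2, h3⟩ := (CongruenceSubgroup.Gamma1_mem N γ).1 hγ
    have h4 := hf.law γ ((ZMod.intCast_zmod_eq_zero_iff_dvd _ _).1 h3)
    have h5 : e (γ 1 1) = 1 := by
      rw [← h.one]
      refine h.per _ _ ((ZMod.intCast_zmod_eq_zero_iff_dvd _ _).1 ?_)
      push_cast
      rw [h2, sub_self]
    rw [h5, one_smul] at h4
    exact h4
  holo' := hf.hol
  zero_at_cusps' hc := by
    rw [Subgroup.IsArithmetic.isCusp_iff_isCusp_SL2Z] at hc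
    rw [OnePoint.isZeroAt_iff_forall_SL2Z hc]
    exact fun γ _ => hf.zer γ

end Bnd

theorem bnd : Spec_BND := by
  intro E N e a h ha
  have a0 := E.zero N e a ha
  obtain ⟨f, hf, hx⟩ := ha
  have : NeZero N := ⟨h.pos.ne'⟩
  have h1 := CuspFormClass.qExpansion_isBigO (Bnd.toCF h hf)
  rw [CongruenceSubgroup.strictWidthInfty_Gamma1] at h1
  have h2 : Ex (fun n => (qExpansion 1 f).coeff n) f := fun τ =>
    ModularForm.hasSum_qExpansion (Bnd.toCF h hf) one_pos (by simp) τ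
  have h3 := E.uniq _ _ f hx h2
  obtain ⟨C, hC, h4⟩ := Asymptotics.bound_of_isBigO_nat_atTop h1
  refine ⟨C, fun n => ?_⟩
  rcases Nat.eq_zero_or_pos n with rfl | hn
  · rw [a0, norm_zero, Nat.cast_zero, mul_zero]
  · have e2 : (n : ℝ) ^ (((2 : ℤ) : ℝ) / 2) = n := by norm_num
    have h5 := h4 (x := n) (by rw [e2]; exact_mod_cast hn.ne')
    rw [e2, Real.norm_natCast] at h5
    rw [h3]
    exact h5

end Vale.Agent.P027M.Fo
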