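import Vale.Agent.P027M.Fo.Defs

/-! # P027 route M, row Fo.DIA: a simultaneous eigenclass for the diamond operators -/

set_option linter.all false

open scoped MatrixGroups

noncomputable section

namespace Vale.Agent.P027M.Fo

open Vale.Agent.P022.H231.L3 Vale.Agent.P027M.M

namespace DiaP

/-- `γ` lies in `Γ₀(N)` and has lower right entry `b` -/
def Cl (N : ℕ) (b : (ZMod N)ˣ) (γ : SL(2, ℤ)) : Prop :=
  (N : ℤ) ∣ γ 1 0 ∧ (b : ZMod N) = ((γ 1 1 : ℤ) : ZMod N)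

variable {N : ℕ} {H : Subgroup (ZMod N)ˣ}

theorem Cl.mul {a b : (ZMod N)ˣ} {γ δ : SL(2, ℤ)} (h : Cl N a γ) (k : Cl N b δ) :
    Cl N (a * b) (γ * δ) := by
  obtain ⟨h1, h2⟩ := h
  obtain ⟨h3, h4⟩ := k
  have e1 : (γ * δ) 1 0 = γ 1 0 * δ 0 0 + γ 1 1 * δ 1 0 := by
    simp [Matrix.mul_apply, Fin.sum_univ_two]
  have e2 : (γ * δ) 1 1 = γ 1 0 * δ 0 1 + γ 1 1 * δ 1 1 := by
    simp [Matrix.mul_apply, Fin.sum_univ_two]
  refine ⟨by rw [e1]; exact dvd_add (h1.mul_right _) (h3.mul_left _), ?_⟩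
  rw [e2, Units.val_mul, h2, h4]
  push_cast
  rw [(ZMod.intCast_zmod_eq_zero_iff_dvd _ _).2 h1, zero_mul, zero_add]

theorem det_cast {γ : SL(2, ℤ)} (h1 : (N : ℤ) ∣ γ 1 0) :
    ((γ 0 0 : ℤ) : ZMod N) * ((γ 1 1 : ℤ) : ZMod N) = 1 := by
  have hdet := γ.det_coe
  rw [Matrix.det_fin_two] at hdet
  have h4 := congrArg (Int.cast : ℤ → ZMod N) hdet
  push_cast at h4
  rw [(ZMod.intCast_zmod_eq_zero_iff_dvd _ _).2 h1, mul_zero, sub_zero] at h4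
  exact h4

theorem Cl.inv {a : (ZMod N)ˣ} {γ : SL(2, ℤ)} (h : Cl N a γ) : Cl N a⁻¹ γ⁻¹ := by
  obtain ⟨h1, h2⟩ := h
  have e1 : (γ⁻¹) 1 0 = -γ 1 0 := by
    simp [Matrix.SpecialLinearGroup.coe_inv, Matrix.adjugate_fin_two]
  have e2 : (γ⁻¹) 1 1 = γ 0 0 := by
    simp [Matrix.SpecialLinearGroup.coe_inv, Matrix.adjugate_fin_two]
  refine ⟨by rw [e1]; exact h1.neg_right, ?_⟩
  rw [e2, Units.inv_eq_of_mul_eq_one_left (a := ((γ 0 0 : ℤ) : ZMod N))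
    (by rw [h2]; exact det_cast h1)]

theorem Cl.mem {a : (ZMod N)ˣ} {γ : SL(2, ℤ)} (h : Cl N a γ) (ha : a ∈ H) : γ ∈ GH N H :=
  mem_GH.2 ⟨h.1, a, ha, h.2⟩

theorem cl_of_mem {γ : SL(2, ℤ)} (h : γ ∈ GH N H) : ∃ a ∈ H, Cl N a γ := by
  obtain ⟨h1, a, ha, h2⟩ := mem_GH.1 h
  exact ⟨a, ha, h1, h2⟩

theorem cl_of_dvd {γ : SL(2, ℤ)} (h : (N : ℤ) ∣ γ 1 0) : ∃ a, Cl N a γ :=
  ⟨Units.mkOfMulEqOne _ _ ((mul_comm _ _).trans (det_cast h)), h, rfl⟩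

theorem cl_surj (b : (ZMod N)ˣ) : ∃ δ, Cl N b δ := by
  obtain ⟨d, hd⟩ := ZMod.intCast_surjective (b : ZMod N)
  have h1 : IsCoprime d (1 * (N : ℤ)) := by
    rw [one_mul]
    exact ((ZMod.coe_int_isUnit_iff_isCoprime d N).1 (hd ▸ b.isUnit)).symm
  obtain ⟨δ, h2, -, h3⟩ := IsDel.exists 1 N d h1
  refine ⟨δ, h2, ?_⟩
  rw [← hd]
  exact (ZMod.intCast_eq_intCast_iff_dvd_sub _ _ _).2 h3

theorem Cl.conj {b : (ZMod N)ˣ} {δ γ : SL(2, ℤ)} (h : Cl N b δ) (hγ : γ ∈ GH N H) :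
    δ * γ * δ⁻¹ ∈ GH N H := by
  obtain ⟨a, ha, k⟩ := cl_of_mem hγ
  refine ((h.mul k).mul h.inv).mem ?_
  rwa [mul_inv_cancel_comm]

theorem Cl.div {b : (ZMod N)ˣ} {δ δ' : SL(2, ℤ)} (h : Cl N b δ) (h' : Cl N b δ') :
    δ * δ'⁻¹ ∈ GH N H := (h.mul h'.inv).mem (by rw [mul_inv_cancel]; exact H.one_mem)

section par

variable {A : Type} [AddCommGroup A] {Γ : Subgroup SL(2, ℤ)} {u : SL(2, ℤ) → A}

theorem par_inv (h : Par Γ u) {x : SL(2, ℤ)} (hx : x ∈ Γ) : u x⁻¹ = -u x := by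
  have h1 := h.add 1 Γ.one_mem 1 Γ.one_mem
  rw [mul_one, left_eq_add] at h1
  have h2 := h.add x hx x⁻¹ (Γ.inv_mem hx)
  rw [mul_inv_cancel, h1] at h2
  exact eq_neg_of_add_eq_zero_right h2.symm

theorem par_three (h : Par Γ u) {x y z : SL(2, ℤ)} (hx : x ∈ Γ) (hy : y ∈ Γ) (hz : z ∈ Γ) :
    u (x * y * z⁻¹) = u x + u y - u z := by
  rw [h.add _ (Γ.mul_mem hx hy) _ (Γ.inv_mem hz), h.add _ hx _ hy, par_inv h hz, sub_eq_add_neg]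

theorem par_conj (h : Par Γ u) {x y : SL(2, ℤ)} (hx : x ∈ Γ) (hy : y ∈ Γ) :
    u (x * y * x⁻¹) = u y := by
  rw [par_three h hx hy hx, add_sub_cancel_left]

end par

theorem same {A : Type} [AddCommGroup A] {u : SL(2, ℤ) → A} (h : Par (GH N H) u)
    {b : (ZMod N)ˣ} {δ δ' γ : SL(2, ℤ)} (k : Cl N b δ) (k' : Cl N b δ') (hγ : γ ∈ GH N H) :
    u (δ * γ * δ⁻¹) = u (δ' * γ * δ'⁻¹) := by
  rw [← par_conj h (k.div k') (k'.conj hγ)]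
  congr 1
  group

theorem par_cj {A : Type} [AddCommGroup A] {u : SL(2, ℤ) → A} (h : Par (GH N H) u)
    {b : (ZMod N)ˣ} {δ : SL(2, ℤ)} (k : Cl N b δ) : Par (GH N H) fun γ => u (δ * γ * δ⁻¹) := by
  refine ⟨fun γ hγ γ' hγ' => ?_, fun g n hg => ?_⟩
  · rw [← h.add _ (k.conj hγ) _ (k.conj hγ')]
    congr 1
    group
  · have e : δ * (g * ModularGroup.T ^ n * g⁻¹) * δ⁻¹ =
        δ * g * ModularGroup.T ^ n * (δ * g)⁻¹ := by group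
    have k1 := k.conj hg
    rw [e] at k1 ⊢
    exact h.par _ _ k1

/-- the diamond operators commute with the Hecke operators -/
theorem isT_cj (hS : STP) (hN : 0 < N) {l : ℕ} (hl : l.Prime) (hlN : ¬ l ∣ N)
    {A : Type} [AddCommGroup A] {u u' : SL(2, ℤ) → A} (h : Par (GH N H) u)
    (hT : IsT N (GH N H) l u u') {b : (ZMod N)ˣ} {δ : SL(2, ℤ)} (k : Cl N b δ) :
    IsT N (GH N H) l (fun γ => u (δ * γ * δ⁻¹)) fun γ => u' (δ * γ * δ⁻¹) := by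
  intro d hd γ hγ s g hg he
  obtain ⟨t, x, hx⟩ := (hS N l hN hl).1 hlN d hd δ k.1
  have hc : ∀ i, Cl N b (x i) := fun i =>
    ⟨(hx i).2.1, k.2.trans ((ZMod.intCast_eq_intCast_iff_dvd_sub _ _ _).2 (hx i).2.2)⟩
  have hy : ∀ i, x i * δ⁻¹ ∈ GH N H := fun i => (hc i).div k
  have e1 : ∀ j, al 1 l d (t j) * ((δ⁻¹ : SL(2, ℤ)) : M2) =
      (((x j)⁻¹ : SL(2, ℤ)) : M2) * al 1 l d j := fun j => by
    have e2 : (((x j)⁻¹ : SL(2, ℤ)) : M2) * (x j : M2) = 1 := by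
      rw [← Matrix.SpecialLinearGroup.coe_mul, inv_mul_cancel, Matrix.SpecialLinearGroup.coe_one]
    have e3 : (δ : M2) * ((δ⁻¹ : SL(2, ℤ)) : M2) = 1 := by
      rw [← Matrix.SpecialLinearGroup.coe_mul, mul_inv_cancel, Matrix.SpecialLinearGroup.coe_one]
    calc al 1 l d (t j) * ((δ⁻¹ : SL(2, ℤ)) : M2)
        = (((x j)⁻¹ : SL(2, ℤ)) : M2) * ((x j : M2) * al 1 l d (t j)) *
            ((δ⁻¹ : SL(2, ℤ)) : M2) := by rw [← Matrix.mul_assoc, e2, Matrix.one_mul]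
      _ = _ := by
        rw [← (hx j).1, Matrix.mul_assoc, Matrix.mul_assoc, e3, Matrix.mul_one]
  have key := hT d hd _ (k.conj hγ) (t⁻¹ * s * t)
    (fun i => x i * δ⁻¹ * (δ * g (t i) * δ⁻¹) * (x ((t⁻¹ * s * t) i) * δ⁻¹)⁻¹)
    (fun i => (GH N H).mul_mem ((GH N H).mul_mem (hy i) (k.conj (hg _))) ((GH N H).inv_mem (hy _)))
    (fun i => by
      have e4 : x i * δ⁻¹ * (δ * g (t i) * δ⁻¹) * (x ((t⁻¹ * s * t) i) * δ⁻¹)⁻¹ =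
          x i * (g (t i) * (x ((t⁻¹ * s * t) i))⁻¹) := by group
      have e5 : t ((t⁻¹ * s * t) i) = s (t i) := by simp
      rw [e4, Matrix.SpecialLinearGroup.coe_mul, Matrix.SpecialLinearGroup.coe_mul,
        Matrix.SpecialLinearGroup.coe_mul, Matrix.SpecialLinearGroup.coe_mul, Matrix.mul_assoc,
        Matrix.mul_assoc, Matrix.mul_assoc, ← e1, e5, ← Matrix.mul_assoc (g (t i) : M2), ← he,
        ← Matrix.mul_assoc, (hx i).1, Matrix.mul_assoc, Matrix.mul_assoc])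
  rw [Finset.sum_congr rfl fun i _ => par_three h (hy i) (k.conj (hg _)) (hy _),
    Finset.sum_sub_distrib, Finset.sum_add_distrib,
    Equiv.sum_comp (t⁻¹ * s * t) fun i => u (x i * δ⁻¹),
    Equiv.sum_comp t fun i => u (δ * g i * δ⁻¹), add_sub_cancel_left] at key
  exact key

/-- an operator of order four has an eigenvector -/
theorem pick {X R : Type} [CommRing R] {i : R} (hi : i ^ 2 = -1) (Γ : X → Prop) (c : X → X)
    (P : (X → R) → Prop) (hP : ∀ u z, P u → P fun x => u (c x) - z * u x) {u : X → R} (hu : P u)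
    (h4 : ∀ x, Γ x → u (c (c (c (c x)))) = u x) (h0 : ∃ x, Γ x ∧ u x ≠ 0) :
    ∃ (v : X → R) (e : GaussianInt), P v ∧ (∃ x, Γ x ∧ v x ≠ 0) ∧ e ^ 4 = 1 ∧
      ∀ x, Γ x → v (c x) = gi i e * v x := by
  by_contra k
  have key : ∀ (v : X → R) (e : GaussianInt), e ^ 4 = 1 → (P v ∧ ∃ x, Γ x ∧ v x ≠ 0) →
      (P fun x => v (c x) - gi i e * v x) ∧ ∃ x, Γ x ∧ v (c x) - gi i e * v x ≠ 0 := by
    intro v e he hv
    refine ⟨hP _ _ hv.1, ?_⟩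
    by_contra k'
    refine k ⟨v, e, hv.1, hv.2, he, fun x hx => ?_⟩
    by_contra k2
    exact k' ⟨x, hx, sub_ne_zero.2 k2⟩
  obtain ⟨-, x, hx, h⟩ := key _ ⟨0, -1⟩ (by decide) (key _ ⟨0, 1⟩ (by decide)
    (key _ ⟨-1, 0⟩ (by decide) (key _ ⟨1, 0⟩ (by decide) ⟨hu, h0⟩)))
  apply h
  have e := h4 x hx
  simp only [gi]
  push_cast
  linear_combination e - (u (c (c x)) - u x) * hi

/-- the linear conditions -/
def Ok (N : ℕ) (H : Subgroup (ZMod N)ˣ) (B : ℕ) (a : ℕ → QO ℤ) (u : SL(2, ℤ) → QO ℤ) : Prop :=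
  Par (GH N H) u ∧ ∀ l : ℕ, l.Prime → ¬ l ∣ B → IsT N (GH N H) l u fun γ => a l * u γ

/-- `u` is an eigenvector for the class `b` -/
def Ev (N : ℕ) (H : Subgroup (ZMod N)ˣ) (u : SL(2, ℤ) → QO ℤ) (b : (ZMod N)ˣ)
    (e : GaussianInt) : Prop :=
  e ^ 4 = 1 ∧ ∀ δ, Cl N b δ → ∀ γ ∈ GH N H, u (δ * γ * δ⁻¹) = gi iO e * u γ

variable {B : ℕ} {a : ℕ → QO ℤ}

theorem Ok.sub {u v : SL(2, ℤ) → QO ℤ} (hu : Ok N H B a u) (hv : Ok N H B a v) (z : QO ℤ) :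
    Ok N H B a fun γ => u γ - z * v γ := by
  refine ⟨⟨fun γ hγ δ hδ => ?_, fun g n hg => ?_⟩, fun l hl hB d hd γ hγ s g hg he => ?_⟩
  · rw [hu.1.add γ hγ δ hδ, hv.1.add γ hγ δ hδ]
    ring
  · rw [hu.1.par g n hg, hv.1.par g n hg, mul_zero, sub_zero]
  · rw [Finset.sum_sub_distrib, ← Finset.mul_sum, hu.2 l hl hB d hd γ hγ s g hg he,
      hv.2 l hl hB d hd γ hγ s g hg he]
    ring

theorem Ok.cj (hS : STP) (hN : 0 < N) (hB : N ∣ B) {u : SL(2, ℤ) → QO ℤ} (hu : Ok N H B a u)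
    {b : (ZMod N)ˣ} {δ : SL(2, ℤ)} (k : Cl N b δ) : Ok N H B a fun γ => u (δ * γ * δ⁻¹) :=
  ⟨par_cj hu.1 k, fun l hl h => isT_cj hS hN hl (fun h' => h (h'.trans hB)) hu.1 (hu.2 l hl h) k⟩

theorem Ev.step {u : SL(2, ℤ) → QO ℤ} (hu : Par (GH N H) u) {b b' : (ZMod N)ˣ} {e : GaussianInt}
    (h : Ev N H u b e) {δ' : SL(2, ℤ)} (k' : Cl N b' δ') (z : QO ℤ) :
    Ev N H (fun γ => u (δ' * γ * δ'⁻¹) - z * u γ) b e := by
  refine ⟨h.1, fun δ k γ hγ => ?_⟩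
  have e1 : δ' * (δ * γ * δ⁻¹) * δ'⁻¹ = δ' * δ * γ * (δ' * δ)⁻¹ := by group
  have e2 : δ * δ' * γ * (δ * δ')⁻¹ = δ * (δ' * γ * δ'⁻¹) * δ⁻¹ := by group
  have k1 := k.mul k'
  rw [mul_comm] at k1
  show u (δ' * (δ * γ * δ⁻¹) * δ'⁻¹) - z * u (δ * γ * δ⁻¹) = _
  rw [e1, same hu (k'.mul k) k1 hγ, e2, h.2 δ k _ (k'.conj hγ), h.2 δ k γ hγ]
  ring

theorem simul (hS : STP) (hL : LvH N H) (hB : N ∣ B) {u : SL(2, ℤ) → QO ℤ} (hu : Ok N H B a u)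
    (h0 : ∃ γ, γ ∈ GH N H ∧ u γ ≠ 0) (S : Finset (ZMod N)ˣ) :
    ∃ v, Ok N H B a v ∧ (∃ γ, γ ∈ GH N H ∧ v γ ≠ 0) ∧ ∀ b ∈ S, ∃ e, Ev N H v b e := by
  classical
  induction S using Finset.induction_on with
  | empty => exact ⟨u, hu, h0, fun b hb => absurd hb (Finset.notMem_empty b)⟩
  | insert b S _ ih =>
    obtain ⟨v, hv, hv0, hvS⟩ := ih
    obtain ⟨δ, k⟩ := cl_surj b
    obtain ⟨w, e, hw, hw0, he, hwe⟩ := pick (i := (iO : QO ℤ)) iO_sq (· ∈ GH N H)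
      (fun γ => δ * γ * δ⁻¹) (fun w => Ok N H B a w ∧ ∀ b ∈ S, ∃ e, Ev N H w b e)
      (fun w z hw => ⟨(hw.1.cj hS hL.lv.pos hB k).sub hw.1 z, fun b' hb' =>
        (hw.2 b' hb').imp fun e he => he.step hw.1.1 k z⟩) ⟨hv, hvS⟩
      (fun γ hγ => by
        have m : δ * δ * δ * δ ∈ GH N H := (((k.mul k).mul k).mul k).mem (by
          have := hL.four b
          rwa [pow_succ, pow_succ, pow_two] at this)
        rw [← par_conj hv.1 m hγ]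
        congr 1
        group) hv0
    refine ⟨w, hw.1, hw0, fun b' hb' => ?_⟩
    rcases Finset.mem_insert.1 hb' with rfl | hb'
    · exact ⟨e, he, fun δ' k' γ hγ => (same hw.1.1 k' k hγ).trans (hwe γ hγ)⟩
    · exact hw.2 b' hb'

end DiaP

open DiaP in
/-- [Fo.DIA] -/
theorem dia : Spec_DIA := by
  intro hS N H B a u hL hB hu
  haveI : NeZero N := ⟨hL.lv.pos.ne'⟩
  obtain ⟨v, hv, hv0, hE⟩ := simul hS hL hB ⟨hu.par, hu.hec⟩ hu.ne Finset.univ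
  have hE' : ∀ b : (ZMod N)ˣ, ∃ e, Ev N H v b e ∧ (b ∈ H → e = 1) := fun b => by
    by_cases hb : b ∈ H
    · refine ⟨1, ⟨one_pow 4, fun δ k γ hγ => ?_⟩, fun _ => rfl⟩
      rw [par_conj hv.1 (k.mem hb) hγ]
      simp [gi]
    · obtain ⟨e, he⟩ := hE b (Finset.mem_univ b)
      exact ⟨e, he, fun h => absurd h hb⟩
  choose ε h1 h2 using hE'
  have ex : ∀ (d : ℤ) (b : (ZMod N)ˣ), (b : ZMod N) = (d : ZMod N) →
      Function.extend (Units.val : (ZMod N)ˣ → ZMod N) ε 0 (d : ZMod N) = ε b := fun d b h => by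
    rw [← h, Units.val_injective.extend_apply]
  refine ⟨fun d => Function.extend (Units.val : (ZMod N)ˣ → ZMod N) ε 0 (d : ZMod N), v,
    ⟨fun x y h => ?_, ?_, ?_, fun x hx => ?_⟩, ⟨hv.1, hv.2, hv0⟩, fun δ hδ γ hγ => ?_⟩
  · rw [(ZMod.intCast_eq_intCast_iff_dvd_sub _ _ _).2 h]
  · exact (ex 1 1 (by simp)).trans (h2 1 H.one_mem)
  · exact (ex (-1) (-1) (by simp)).trans (h2 (-1) hL.neg)
  · obtain ⟨b, hb⟩ := (ZMod.coe_int_isUnit_iff_isCoprime x N).2 hx.symm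
    rw [ex x b hb]
    exact (h1 b).1
  · obtain ⟨b, k⟩ := cl_of_dvd hδ
    show _ = gi iO (Function.extend (Units.val : (ZMod N)ˣ → ZMod N) ε 0 ((δ 1 1 : ℤ) : ZMod N)) * _
    rw [ex _ b k.2]
    exact (h1 b).2 δ k γ hγ

end Vale.Agent.P027M.Fo
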