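import Vale.Agent.P027M.Fo.Defs
import Vale.Agent.P027M.M.CPbm
import Vale.Agent.P027M.M.B4

/-! # P027 route M, block FORM: row EXP -/

set_option linter.all false

open UpperHalfPlane Filter Topology
open scoped MatrixGroups ModularForm

noncomputable section

namespace Vale.Agent.P027M.Fo

open Vale.Agent.P022 Vale.Agent.P022.H218.L3 Vale.Agent.P022.H231.L3 Vale.Agent.P027M.M

theorem Ex.exq {a : ℕ → ℂ} {f : ℍ → ℂ} (h : Ex a f) : H236.Exq 1 0 (PowerSeries.mk a) f :=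
  Eventually.of_forall fun τ => by simpa [H236.Ev] using h τ

theorem Ex.tendsto {a : ℕ → ℂ} {f : ℍ → ℂ} (h : Ex a f) : Tendsto f atImInfty (𝓝 (a 0)) := by
  simpa using B4.exq_tendsto one_ne_zero h.exq

theorem Zer.zero {f : ℍ → ℂ} (h : Zer f) : IsZeroAtImInfty f := by
  have := h 1
  rwa [SlashAction.slash_one] at this

theorem Cusp.vadd {N : ℕ} {e : ℤ → ℂ} {f : ℍ → ℂ} (he : Pe N e) (h : Cusp N e f) (τ : ℍ) :
    f ((1 : ℝ) +ᵥ τ) = f τ := by
  have h1 := congrFun (h.law ModularGroup.T (by simp [ModularGroup.T])) τ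
  have e1 : (ModularGroup.T : SL(2, ℤ)) 1 1 = 1 := by simp [ModularGroup.T]
  rw [ModularForm.SL_slash_apply, e1, he.one, one_smul, ModularGroup.denom_apply,
    modular_T_smul] at h1
  simpa [ModularGroup.T] using h1

theorem Cusp.periodic {N : ℕ} {e : ℤ → ℂ} {f : ℍ → ℂ} (he : Pe N e) (h : Cusp N e f) :
    Function.Periodic (f ∘ ofComplex) ((1 : ℝ) : ℂ) := by
  intro z
  by_cases hz : 0 < z.im
  · have e1 : ofComplex (z + (1 : ℝ)) = (1 : ℝ) +ᵥ (⟨z, hz⟩ : ℍ) := by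
      rw [ofComplex_apply_of_im_pos (by simpa using hz)]
      ext
      simp [UpperHalfPlane.coe_vadd, add_comm]
    simp only [Function.comp_apply]
    rw [e1, ofComplex_apply_of_im_pos hz]
    exact h.vadd he _
  · simp only [Function.comp_apply]
    rw [ofComplex_apply_of_im_nonpos (by simpa using hz),
      ofComplex_apply_of_im_nonpos (not_lt.1 hz)]

theorem Zer.gl {f : ℍ → ℂ} (h : Zer f) (A : M2) (hA : 0 < A.det) :
    Zer (f ∣[(2 : ℤ)] gl A hA) := by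
  intro γ
  have hp1 : 0 < (A * (γ : M2)).det := by
    rw [Matrix.det_mul]; exact mul_pos hA (SL_pos γ)
  obtain ⟨g, a, d, b, ha, hd, e⟩ := Pbm.hermite _ hp1
  have hp3 : 0 < (!![(a : ℤ), b; 0, (d : ℤ)] : M2).det := by
    rw [Matrix.det_fin_two_of]
    simpa using mul_pos (Int.natCast_pos.2 ha) (Int.natCast_pos.2 hd)
  rw [← slash_gl_SL 2 f γ hA hp1, gl_congr e hp1 (e ▸ hp1), slash_SL_gl 2 f g hp3 (e ▸ hp1)]
  refine IsZeroAtImInfty.slash 2 ?_ (h g)
  simp [gl_coe]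

theorem Cusp.add {N : ℕ} {e : ℤ → ℂ} {f g : ℍ → ℂ} (hf : Cusp N e f) (hg : Cusp N e g) :
    Cusp N e (f + g) :=
  ⟨Hol.add_mem hf.hol hg.hol,
    fun γ h => by rw [SlashAction.add_slash, hf.law γ h, hg.law γ h, smul_add],
    fun γ => by rw [SlashAction.add_slash]; exact ZeroAtFilter.add (hf.zer γ) (hg.zer γ)⟩

theorem Cusp.smul {N : ℕ} {e : ℤ → ℂ} {f : ℍ → ℂ} (hf : Cusp N e f) (z : ℂ) :
    Cusp N e (z • f) :=
  ⟨Hol.smul_mem hf.hol z,
    fun γ h => by rw [ModularForm.SL_smul_slash, hf.law γ h, smul_comm],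
    fun γ => by rw [ModularForm.SL_smul_slash]; exact ZeroAtFilter.smul z (hf.zer γ)⟩

theorem Ex.add {a b : ℕ → ℂ} {f g : ℍ → ℂ} (hf : Ex a f) (hg : Ex b g) : Ex (a + b) (f + g) :=
  fun τ => by simpa [add_mul] using (hf τ).add (hg τ)

theorem Ex.smulE {a : ℕ → ℂ} {f : ℍ → ℂ} (hf : Ex a f) (z : ℂ) : Ex (z • a) (z • f) :=
  fun τ => by simpa [mul_assoc] using (hf τ).mul_left z

theorem exp_ok : EXP where
  ex N e f he h := ⟨_, fun τ =>
    hasSum_qExpansion one_pos (h.periodic he) h.hol h.zer.zero.isBoundedAtImInfty τ⟩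
  uniq a b f ha hb := by
    have := ha.exq.unique one_ne_zero hb.exq
    funext n
    simpa using congrArg (PowerSeries.coeff n) this
  zero N e a := fun ⟨f, hf, ha⟩ => tendsto_nhds_unique ha.tendsto hf.zer.zero
  zer f h A hA := h.gl A hA
  add N e a b := fun ⟨f, hf, ha⟩ ⟨g, hg, hb⟩ => ⟨f + g, hf.add hg, ha.add hb⟩
  smul N e z a := fun ⟨f, hf, ha⟩ => ⟨z • f, hf.smul z, ha.smulE z⟩
  up N M e a h := fun ⟨f, hf, ha⟩ =>
    ⟨f, ⟨hf.hol, fun γ hγ => hf.law γ ((Int.natCast_dvd_natCast.2 h).trans hγ), hf.zer⟩, ha⟩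

end Vale.Agent.P027M.Fo
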