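import Vale.Agent.P027M.Fo.Defs

/-! # P027 route M, row Fo.HEC : the Hecke operators on cusp forms -/

set_option linter.all false

open UpperHalfPlane Filter Topology
open scoped MatrixGroups ModularForm Real

noncomputable section

namespace Vale.Agent.P027M.Fo

open Vale.Agent.P022.H218.L3 Vale.Agent.P022.H231.L3 Vale.Agent.P027M.M

namespace Hec

theorem sigma_gl (A : Matrix (Fin 2) (Fin 2) ℤ) (hA : 0 < A.det) (z : ℂ) : σ (gl A hA) z = z := by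
  simp only [UpperHalfPlane.σ, if_pos (gl_pos A hA)]
  rfl

theorem coe_gl (A : Matrix (Fin 2) (Fin 2) ℤ) (hA : 0 < A.det) (τ : ℍ) :
    ((gl A hA • τ : ℍ) : ℂ) = ((A 0 0 : ℂ) * τ + A 0 1) / ((A 1 0 : ℂ) * τ + A 1 1) := by
  rw [UpperHalfPlane.coe_smul_of_det_pos (gl_pos A hA), UpperHalfPlane.num,
    UpperHalfPlane.denom, gl_coe]
  simp

theorem slash_gl (f : ℍ → ℂ) (A : Matrix (Fin 2) (Fin 2) ℤ) (hA : 0 < A.det) (τ : ℍ) :
    (f ∣[(2 : ℤ)] gl A hA) τ = f (gl A hA • τ) * A.det / ((A 1 0 : ℂ) * τ + A 1 1) ^ 2 := by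
  have h1 : (gl A hA).det.val = (A.det : ℝ) := det_map A
  rw [ModularForm.slash_apply, sigma_gl, abs_of_pos (gl_pos A hA), h1, UpperHalfPlane.denom, gl_coe,
    zpow_neg, div_eq_mul_inv]
  simp [zpow_two, sq]

variable {N : ℕ} {e : ℤ → ℂ} {f : ℍ → ℂ}

theorem step (hP : Pe N e) (hf : Cusp N e f) {A B : Matrix (Fin 2) (Fin 2) ℤ} (hA : 0 < A.det)
    (hB : 0 < B.det) {γ g : SL(2, ℤ)}
    (h : A * (γ : Matrix (Fin 2) (Fin 2) ℤ) = (g : Matrix (Fin 2) (Fin 2) ℤ) * B)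
    (h1 : (N : ℤ) ∣ g 1 0) (h2 : (N : ℤ) ∣ g 1 1 - γ 1 1) :
    (f ∣[(2 : ℤ)] gl A hA) ∣[(2 : ℤ)] γ = e (γ 1 1) • f ∣[(2 : ℤ)] gl B hB := by
  have hp1 : 0 < (A * (γ : Matrix (Fin 2) (Fin 2) ℤ)).det := by
    rw [Matrix.det_mul]; exact mul_pos hA (SL_pos γ)
  have hp2 : 0 < ((g : Matrix (Fin 2) (Fin 2) ℤ) * B).det := by rw [← h]; exact hp1
  rw [← slash_gl_SL 2 f γ hA hp1, gl_congr h hp1 hp2, slash_SL_gl 2 f g hB hp2, hf.law g h1,
    hP.per _ _ h2, ModularForm.smul_slash, sigma_gl]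

theorem zer_sum {ι : Type} (s : Finset ι) (g : ι → ℍ → ℂ) (h : ∀ i, Zer (g i)) :
    Zer (∑ i ∈ s, g i) := by
  intro γ
  rw [SlashAction.sum_slash]
  have := tendsto_finsetSum s fun i _ => h i γ
  rw [Finset.sum_const_zero] at this
  exact this.congr fun τ => (Finset.sum_apply τ s _).symm

theorem cusp_sum (hE : EXP) (hP : Pe N e) (hf : Cusp N e f) {ι : Type} [Fintype ι]
    (A : ι → Matrix (Fin 2) (Fin 2) ℤ) (hA : ∀ i, 0 < (A i).det)
    (h : ∀ γ : SL(2, ℤ), (N : ℤ) ∣ γ 1 0 → ∃ (s : Equiv.Perm ι) (g : ι → SL(2, ℤ)), ∀ i,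
      A i * (γ : Matrix (Fin 2) (Fin 2) ℤ) = (g i : Matrix (Fin 2) (Fin 2) ℤ) * A (s i) ∧
        (N : ℤ) ∣ g i 1 0 ∧ (N : ℤ) ∣ g i 1 1 - γ 1 1) :
    Cusp N e (∑ i, f ∣[(2 : ℤ)] gl (A i) (hA i)) := by
  refine ⟨sum_mem fun i _ => slash_mem' hf.hol _ _, fun γ hγ => ?_,
    zer_sum _ _ fun i => hE.zer f hf.zer _ _⟩
  obtain ⟨s, g, hs⟩ := h γ hγ
  rw [SlashAction.sum_slash, Finset.smul_sum,
    ← Equiv.sum_comp s fun i => e (γ 1 1) • f ∣[(2 : ℤ)] gl (A i) (hA i)]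
  exact Finset.sum_congr rfl fun i _ =>
    step hP hf (hA i) (hA (s i)) (hs i).1 (hs i).2.1 (hs i).2.2

theorem geo {p : ℕ} (h0 : 0 < p) (n : ℕ) :
    ∑ j : Fin p, (Complex.exp (2 * π * Complex.I / p) ^ n) ^ (j : ℕ) =
      if p ∣ n then (p : ℂ) else 0 := by
  have hζ := Complex.isPrimitiveRoot_exp p h0.ne'
  rw [Fin.sum_univ_eq_sum_range fun j => (Complex.exp (2 * π * Complex.I / p) ^ n) ^ j]
  split_ifs with h
  · rw [(hζ.pow_eq_one_iff_dvd n).2 h]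
    simp
  · rw [geom_sum_eq fun k => h ((hζ.pow_eq_one_iff_dvd n).1 k), ← pow_mul, mul_comm n p, pow_mul,
      hζ.pow_eq_one, one_pow, sub_self, zero_div]

/-- the operator `U` on functions -/
def Uf {p : ℕ} (h0 : 0 < p) (f : ℍ → ℂ) : ℍ → ℂ := ∑ j : Fin p, sl h0 1 1 2 f (some j)

theorem ex_U {a : ℕ → ℂ} (ha : Ex a f) {p : ℕ} (h0 : 0 < p) :
    Ex (fun n => a (n * p)) (Uf h0 f) := by
  intro τ
  have hp : (p : ℂ) ≠ 0 := Nat.cast_ne_zero.2 h0.ne'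
  set x := Complex.exp (2 * π * Complex.I * τ / p) with hx
  set ζ := Complex.exp (2 * π * Complex.I / p) with hζ
  have hxp : x ^ p = Function.Periodic.qParam 1 τ := by
    rw [hx, ← Complex.exp_nat_mul, Function.Periodic.qParam]
    congr 1
    push_cast
    field_simp
  have h1 : ∀ j : Fin p, HasSum (fun n => a n * x ^ n / p * (ζ ^ n) ^ (j : ℕ))
      (sl h0 1 1 2 f (some j) τ) := by
    intro j
    have h2 := (ha (gl (al 1 p 1 (some j)) (al_pos h0 1 _) • τ)).div_const (p : ℂ)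
    have h3 : Function.Periodic.qParam 1 ((gl (al 1 p 1 (some j)) (al_pos h0 1 _) • τ : ℍ) : ℂ) =
        x * ζ ^ (j : ℕ) := by
      rw [coe_gl, Function.Periodic.qParam, hx, hζ, ← Complex.exp_nat_mul, ← Complex.exp_add]
      congr 1
      simp [al]
      field_simp
    have h4 : sl h0 1 1 2 f (some j) τ = f (gl (al 1 p 1 (some j)) (al_pos h0 1 _) • τ) / p := by
      rw [sl, slash_gl, det_al]
      simp [al]
      field_simp
    rw [h4]
    rw [h3] at h2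
    refine h2.congr_fun fun n => ?_
    rw [mul_pow, ← pow_mul, ← pow_mul, mul_comm n j]
    ring
  have h5 := hasSum_sum fun j (_ : j ∈ Finset.univ) => h1 j
  simp only [← Finset.mul_sum, hζ, geo h0] at h5
  have hi : Function.Injective fun n : ℕ => n * p := mul_left_injective₀ h0.ne'
  have h6 := (hi.hasSum_iff fun n hn => by
    rw [if_neg, mul_zero]
    rintro ⟨k, rfl⟩
    exact hn ⟨k, mul_comm _ _⟩).2 h5
  rw [Uf, Finset.sum_apply]
  refine h6.congr_fun fun n => ?_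
  beta_reduce
  rw [Function.comp_apply, if_pos (dvd_mul_left p n), mul_comm n p, pow_mul, hxp,
    div_mul_cancel₀ _ hp]

theorem ex_V {a : ℕ → ℂ} (hP : Pe N e) (hf : Cusp N e f) (ha : Ex a f) {p : ℕ} (h0 : 0 < p)
    {d : SL(2, ℤ)} (hd : IsDel 1 N p d) :
    Ex (fun n => if p ∣ n then e p * p * a (n / p) else 0) (sl h0 1 d 2 f none) := by
  intro τ
  have hp4 : 0 < ((d : Matrix (Fin 2) (Fin 2) ℤ) * !![(p : ℤ), 0; 0, 1]).det := al_pos (P := 1) h0 d none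
  have e4 : sl h0 1 d 2 f none =
      f ∣[(2 : ℤ)] gl ((d : Matrix (Fin 2) (Fin 2) ℤ) * !![(p : ℤ), 0; 0, 1]) hp4 := rfl
  have h1 : sl h0 1 d 2 f none τ = e p * p * f (gl !![(p : ℤ), 0; 0, 1] (diag_pos h0) • τ) := by
    rw [e4, slash_SL_gl 2 f d (diag_pos h0) hp4, hf.law d hd.1, hP.per _ _ hd.2.2,
      ModularForm.smul_slash, sigma_gl, Pi.smul_apply, slash_gl]
    simp
    ring
  have h3 : Function.Periodic.qParam 1 ((gl !![(p : ℤ), 0; 0, 1] (diag_pos h0) • τ : ℍ) : ℂ) =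
      Function.Periodic.qParam 1 τ ^ p := by
    rw [coe_gl, Function.Periodic.qParam, Function.Periodic.qParam, ← Complex.exp_nat_mul]
    congr 1
    simp
    ring
  have h2 := (ha (gl !![(p : ℤ), 0; 0, 1] (diag_pos h0) • τ)).mul_left (e p * p)
  have hi : Function.Injective fun n : ℕ => n * p := mul_left_injective₀ h0.ne'
  rw [h1]
  refine (hi.hasSum_iff fun n hn => ?_).1 ?_
  · beta_reduce
    rw [if_neg, zero_mul]
    rintro ⟨k, rfl⟩
    exact hn ⟨k, mul_comm _ _⟩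
  · refine h2.congr_fun fun n => ?_
    rw [Function.comp_apply]
    beta_reduce
    rw [if_pos (dvd_mul_left p n), Nat.mul_div_cancel _ h0, h3, ← pow_mul,
      mul_comm p n]
    ring

theorem Tf_eq {p : ℕ} (h0 : 0 < p) (d : SL(2, ℤ)) (f : ℍ → ℂ) :
    Tf h0 d f = Uf h0 f + sl h0 1 d 2 f none := by
  rw [Tf, Fintype.sum_option, add_comm]
  rfl

theorem cusp_U (hS : STP) (hE : EXP) (hP : Pe N e) (hf : Cusp N e f) {p : ℕ} (hp : p.Prime)
    (h : p ∣ N) : Cusp N e (Uf hp.pos f) :=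
  cusp_sum hE hP hf (fun j : Fin p => al 1 p 1 (some j)) (fun j => al_pos hp.pos 1 _)
    ((hS N p hP.pos hp).2 h)

end Hec

theorem hec : Spec_HEC := by
  intro hS hE N e f a p hp hP hf ha
  refine ⟨fun h d hd => ⟨?_, fun τ => ?_⟩, fun h =>
    ⟨_, Hec.cusp_U hS hE hP hf hp h, Hec.ex_U ha hp.pos⟩⟩
  · exact Hec.cusp_sum hE hP hf (al 1 p d) (al_pos hp.pos d) ((hS N p hP.pos hp).1 h d hd)
  · rw [Hec.Tf_eq]
    have := (Hec.ex_U ha hp.pos τ).add (Hec.ex_V hP hf ha hp.pos hd τ)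
    simp only [← add_mul] at this
    exact this

end Vale.Agent.P027M.Fo
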