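import Vale.Agent.P027M.Fo.Defs

/-! # P027 route M, block FORM: a form in `q ^ p`, `p` prime to the level, vanishes -/

set_option linter.all false

open UpperHalfPlane Matrix Matrix.GeneralLinearGroup
open scoped MatrixGroups ModularForm Real

noncomputable section

namespace Vale.Agent.P027M.Fo

namespace LemAux

/-- the stabiliser -/
def St (f : ℍ → ℂ) : Subgroup (GL (Fin 2) ℝ) where
  carrier := {g | f ∣[(2 : ℤ)] g = f}
  one_mem' := SlashAction.slash_one _ _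
  mul_mem' := by
    intro g h hg hh
    show f ∣[(2 : ℤ)] (g * h) = f
    rw [SlashAction.slash_mul, hg, hh]
  inv_mem' := by
    intro g hg
    show f ∣[(2 : ℤ)] g⁻¹ = f
    conv_lhs => rw [← show f ∣[(2 : ℤ)] g = f from hg]
    rw [← SlashAction.slash_mul, mul_inv_cancel, SlashAction.slash_one]

theorem slashU (f : ℍ → ℂ) (x : ℝ) (τ : ℍ) :
    (f ∣[(2 : ℤ)] (upperRightHom x : GL (Fin 2) ℝ)) τ = f (x +ᵥ τ) := by
  have e : (upperRightHom x : GL (Fin 2) ℝ) • τ = x +ᵥ τ := by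
    ext
    simp [σ, num, denom, coe_vadd, UpperHalfPlane.coe_smul, add_comm]
  rw [ModularForm.slash_apply, e]
  simp [σ, denom]

theorem exU {a : ℕ → ℂ} {f : ℍ → ℂ} (h : Ex a f) (x : ℝ) :
    Ex (fun n => a n * Complex.exp (2 * π * Complex.I * x) ^ n)
      (f ∣[(2 : ℤ)] (upperRightHom x : GL (Fin 2) ℝ)) := by
  intro τ
  have e : Function.Periodic.qParam 1 ((x +ᵥ τ : ℍ) : ℂ) =
      Complex.exp (2 * π * Complex.I * x) * Function.Periodic.qParam 1 τ := by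
    rw [Function.Periodic.qParam, Function.Periodic.qParam, ← Complex.exp_add, coe_vadd]
    congr 1
    push_cast
    ring
  have h1 := h (x +ᵥ τ)
  simp only [e, mul_pow, ← mul_assoc] at h1
  rw [slashU]
  exact h1

theorem zeta {q : ℕ} (hq : q ≠ 0) :
    IsPrimitiveRoot (Complex.exp (2 * π * Complex.I * ((q : ℝ)⁻¹ : ℝ))) q := by
  have := Complex.isPrimitiveRoot_exp q hq
  rwa [Complex.ofReal_inv, Complex.ofReal_natCast, ← div_eq_mul_inv]

theorem mem_iff (hE : EXP) {a : ℕ → ℂ} {f : ℍ → ℂ} (h : Ex a f) {q : ℕ} (hq : q ≠ 0) :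
    upperRightHom ((q : ℝ)⁻¹) ∈ St f ↔ ∀ n, ¬ q ∣ n → a n = 0 := by
  constructor
  · intro h1 n hn
    have h2 := exU h (q : ℝ)⁻¹
    rw [show f ∣[(2 : ℤ)] (upperRightHom ((q : ℝ)⁻¹) : GL (Fin 2) ℝ) = f from h1] at h2
    have h3 := congrFun (hE.uniq _ _ _ h2 h) n
    exact (mul_eq_left₀ (a := a n) |>.mt fun h0 => hn (((zeta hq).pow_eq_one_iff_dvd n).1
      (h0.1 h3))) |> fun k => by_contra fun h0 => k h0
  · intro h1
    funext τ
    refine (exU h (q : ℝ)⁻¹ τ).unique ?_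
    have e : (fun n => a n * Complex.exp (2 * π * Complex.I * ((q : ℝ)⁻¹ : ℝ)) ^ n) = a := by
      funext n
      by_cases hn : q ∣ n
      · rw [((zeta hq).pow_eq_one_iff_dvd n).2 hn, mul_one]
      · rw [h1 n hn, zero_mul]
    have h2 := h τ
    rw [← e] at h2
    exact h2

theorem g1 {N : ℕ} {e : ℤ → ℂ} {f : ℍ → ℂ} (hP : Pe N e) (hf : Cusp N e f) (γ : SL(2, ℤ))
    (h1 : (N : ℤ) ∣ γ 1 0) (h2 : (N : ℤ) ∣ γ 1 1 - 1) : (γ : GL (Fin 2) ℝ) ∈ St f := by
  have := hf.law γ h1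
  rwa [hP.per _ _ h2, hP.one, one_smul] at this

theorem step {N : ℕ} {e : ℤ → ℂ} {f : ℍ → ℂ} (hP : Pe N e) (hf : Cusp N e f) {q : ℕ} (hq : q ≠ 0)
    (hc : q.Coprime N) (h : upperRightHom ((q : ℝ)⁻¹) ∈ St f) :
    upperRightHom (((q * q : ℕ) : ℝ)⁻¹) ∈ St f := by
  obtain ⟨d, k, hk⟩ := Nat.isCoprime_iff_coprime.2 hc
  let L : SL(2, ℤ) := ⟨!![1, 0; q * N, 1], by simp [det_fin_two]⟩
  let γ : SL(2, ℤ) := ⟨!![1 + N * d, d ^ 2; -N ^ 2, 1 - N * d], by rw [det_fin_two_of]; ring⟩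
  have hL := g1 hP hf L ⟨q, by simp [L, mul_comm]⟩ (by simp [L])
  have hγ := g1 hP hf γ ⟨-N, by simp [γ, pow_two]⟩ ⟨-d, by simp [γ]⟩
  have hU := (St f).zpow_mem h (-k)
  rw [← AddChar.map_zsmul_eq_zpow] at hU
  have hl := (St f).mul_mem hL hU
  refine ((St f).mul_mem_cancel_right hl).1 ?_
  have q0 : (q : ℝ) ≠ 0 := by exact_mod_cast hq
  have hk' : (d : ℝ) * q + k * N = 1 := by exact_mod_cast hk
  have e1 : upperRightHom (((q * q : ℕ) : ℝ)⁻¹) * ((L : GL (Fin 2) ℝ) *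
      upperRightHom (-k • (q : ℝ)⁻¹)) = (L : GL (Fin 2) ℝ) * upperRightHom (-k • (q : ℝ)⁻¹) *
        (γ : GL (Fin 2) ℝ) := by
    have c : ∀ (g : SL(2, ℤ)) i j, (g : GL (Fin 2) ℝ) i j = (g i j : ℝ) := fun _ _ _ => rfl
    ext i j
    simp only [Units.val_mul, Matrix.mul_apply, Fin.sum_univ_two, c]
    fin_cases i <;> fin_cases j <;> simp [L, γ] <;> field_simp
    · linear_combination (-N : ℝ) * hk'
    · linear_combination (-(1 + q * d) : ℝ) * hk'
    · linear_combination (-N ^ 2 : ℝ) * hk'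
    · linear_combination (-N * d : ℝ) * hk'
  rw [e1]
  exact (St f).mul_mem hl hγ

end LemAux

open LemAux in
theorem lem : Spec_LEM := by
  intro hE N e a p hP hS hp hN h
  have h0 := hE.zero N e a hS
  obtain ⟨f, hf, ha⟩ := hS
  have h1 : ∀ r : ℕ, upperRightHom (((p ^ 2 ^ r : ℕ) : ℝ)⁻¹) ∈ St f := by
    intro r
    induction r with
    | zero => simpa using (mem_iff hE ha hp.ne_zero).2 h
    | succ r ih =>
      rw [pow_succ, pow_mul, pow_two]
      exact step hP hf (pow_ne_zero _ hp.ne_zero)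
        (Nat.Coprime.pow_left _ (hp.coprime_iff_not_dvd.2 hN)) ih
  funext n
  rcases Nat.eq_zero_or_pos n with rfl | hn
  · exact h0
  · refine (mem_iff hE ha (pow_ne_zero _ hp.ne_zero)).1 (h1 n) n (Nat.not_dvd_of_pos_of_lt hn ?_)
    exact (Nat.lt_two_pow_self).trans (Nat.lt_pow_self hp.one_lt)

end Vale.Agent.P027M.Fo
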