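import Vale.Agent.P027M.Fo.Defs

/-! # P027 route M, block FORM: the depleted form -/

set_option linter.all false

open UpperHalfPlane
open scoped MatrixGroups ModularForm Real PowerSeries ComplexConjugate

noncomputable section

namespace Vale.Agent.P027M.Fo

open Vale.Agent.P022.H218.L3 Vale.Agent.P022.H231.L3 Vale.Agent.P027M.M

namespace Out

/-- `1` or `√3` -/
def w (n : ℕ) : ℂ := if n % 4 = 1 then 1 else ((√3 : ℝ) : ℂ)

theorem sq3 : ((√3 : ℝ) : ℂ) * ((√3 : ℝ) : ℂ) = 3 := by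
  rw [← Complex.ofReal_mul, Real.mul_self_sqrt (by norm_num)]
  norm_num

theorem one_le_w (n : ℕ) : 1 ≤ ‖w n‖ := by
  unfold w
  split_ifs
  · simp
  · rw [Complex.norm_real, Real.norm_of_nonneg (Real.sqrt_nonneg _)]
    exact Real.one_le_sqrt.2 (by norm_num)

theorem w_ne (n : ℕ) : w n ≠ 0 := fun h => by
  have := one_le_w n
  rw [h, norm_zero] at this
  linarith

theorem w_mul {m p : ℕ} (hm : m % 2 = 1) (hp : p % 2 = 1) :
    w p * w m = w (m * p) * (if p % 4 = 3 ∧ m % 4 = 3 then 3 else 1) := by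
  have h1 : m % 4 = 1 ∨ m % 4 = 3 := by omega
  have h2 : p % 4 = 1 ∨ p % 4 = 3 := by omega
  have h3 := Nat.mul_mod m p 4
  rcases h1 with h1 | h1 <;> rcases h2 with h2 | h2 <;> rw [h1, h2] at h3 <;>
    simp [w, h1, h2, h3, sq3]

theorem w_sq {k p : ℕ} (hp : p % 2 = 1) : w (p * k * p) = w k := by
  have h2 : p % 4 = 1 ∨ p % 4 = 3 := by omega
  have h3 : (p * k * p) % 4 = k % 4 := by
    have h4 : k % 4 = 0 ∨ k % 4 = 1 ∨ k % 4 = 2 ∨ k % 4 = 3 := by omega
    rcases h2 with h2 | h2 <;> rcases h4 with h4 | h4 | h4 | h4 <;> simp [Nat.mul_mod, h2, h4]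
  rw [w, w, h3]

theorem odd_of {N n : ℕ} (h4 : 4 ∣ N) (h : n.Coprime N) : n % 2 = 1 := by
  by_contra h1
  have h2 : 2 ∣ n := by omega
  have := Nat.dvd_gcd h2 ((by norm_num : 2 ∣ 4).trans h4)
  rw [h] at this
  omega

theorem le_of_pow {x p D : ℝ} (hp : 0 < p) (h : ∀ k : ℕ, x ^ (k + 1) ≤ D * p ^ (k + 1)) : x ≤ p := by
  by_contra h1
  have h2 : 1 < x / p := (one_lt_div hp).2 (not_le.1 h1)
  obtain ⟨n, hn⟩ := pow_unbounded_of_one_lt D h2
  have h3 : (x / p) ^ n ≤ (x / p) ^ (n + 1) := pow_le_pow_right₀ h2.le (Nat.le_succ n)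
  have h4 : (x / p) ^ (n + 1) ≤ D := by
    rw [div_pow, div_le_iff₀ (pow_pos hp _)]
    exact h n
  linarith

theorem root_le {s : ℕ → ℂ} {α β : ℂ} {p C : ℝ} (hp : 0 < p) (h0 : s 0 = 1) (h1 : s 1 = α + β)
    (h2 : ∀ k, s (k + 2) = (α + β) * s (k + 1) - α * β * s k) (hb : ∀ k, ‖s k‖ ≤ C * p ^ k) :
    ‖α‖ ≤ p := by
  have h3 : ∀ k, s (k + 1) - β * s k = α ^ (k + 1) := by
    intro k
    induction k with
    | zero => rw [zero_add, h0, h1]; ring
    | succ k ih => rw [h2, pow_succ, ← ih]; ring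
  refine le_of_pow (D := C + ‖β‖ * C / p) hp fun k => ?_
  rw [← norm_pow, ← h3]
  refine (norm_sub_le _ _).trans ?_
  rw [norm_mul]
  have h4 := mul_le_mul_of_nonneg_left (hb k) (norm_nonneg β)
  have h5 : ‖β‖ * C / p * p ^ (k + 1) = ‖β‖ * (C * p ^ k) := by
    field_simp
    ring
  rw [add_mul, h5]
  exact add_le_add (hb _) h4

theorem hecke_le {s : ℕ → ℂ} {A E : ℂ} {p C : ℝ} (hp : 0 < p) (h0 : s 0 = 1) (h1 : s 1 = A)
    (h2 : ∀ k, s (k + 2) = A * s (k + 1) - E * s k) (hb : ∀ k, ‖s k‖ ≤ C * p ^ k) :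
    ‖A‖ ≤ 2 * p := by
  obtain ⟨d, hd⟩ := IsAlgClosed.exists_eq_mul_self (A ^ 2 - 4 * E)
  have e1 : A = (A + d) / 2 + (A - d) / 2 := by ring
  have e2 : E = (A + d) / 2 * ((A - d) / 2) := by linear_combination (-1 / 4 : ℂ) * hd
  have h3 := root_le (α := (A + d) / 2) (β := (A - d) / 2) hp h0 (h1.trans e1)
    (fun k => by rw [← e1, ← e2, h2]) hb
  have h4 := root_le (α := (A - d) / 2) (β := (A + d) / 2) hp h0 (by rw [add_comm]; exact h1.trans e1)
    (fun k => by rw [add_comm ((A - d) / 2), mul_comm ((A - d) / 2), ← e1, ← e2, h2]) hb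
  rw [e1]
  refine (norm_add_le _ _).trans ?_
  linarith

theorem sq_unit (N : ℕ) (h4 : 4 ∣ N) (u : (ZMod N)ˣ) (x : ZMod N) :
    ZMod.castHom h4 (ZMod 4) ((u : ZMod N) ^ 2 * x) = ZMod.castHom h4 (ZMod 4) x := by
  have h1 : ∀ y z : ZMod 4, y * z = 1 → y ^ 2 = 1 := by decide
  have h2 := congrArg (ZMod.castHom h4 (ZMod 4)) u.mul_inv
  rw [map_mul, map_one] at h2
  rw [map_mul, map_pow, h1 _ _ h2, one_mul]

theorem twist (hT : TWI) {N : ℕ} {e : ℤ → ℂ} {a : ℕ → ℂ} (hL : Lv N) (he : Pe N e) (ha : Sq N e a)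
    (r : ℕ) (hr : r < 4) (z : ℂ) :
    Sq (N ^ 3) e fun n => if n.Coprime N ∧ n % 4 = r then z * a n else 0 := by
  classical
  have h := hT N e a N (fun x => if IsUnit x ∧ ZMod.castHom hL.four (ZMod 4) x = (r : ZMod 4)
    then z else 0) he hL.pos ha (by
      intro u x
      have e0 : IsUnit ((u : ZMod N) ^ 2 * x) ↔ IsUnit x := by
        rw [← Units.val_pow_eq_pow_val, Units.isUnit_units_mul]
      simp only [sq_unit N hL.four u x, e0])
  rw [show N * N ^ 2 = N ^ 3 by ring] at h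
  have e1 : (fun n : ℕ => (if IsUnit (n : ZMod N) ∧
      ZMod.castHom hL.four (ZMod 4) (n : ZMod N) = (r : ZMod 4) then z else 0) * a n) =
      fun n => if n.Coprime N ∧ n % 4 = r then z * a n else 0 := by
    funext n
    have e2 : (IsUnit (n : ZMod N) ∧ ZMod.castHom hL.four (ZMod 4) (n : ZMod N) = (r : ZMod 4)) ↔
        (n.Coprime N ∧ n % 4 = r) := by
      rw [ZMod.isUnit_iff_coprime, map_natCast, ZMod.natCast_eq_natCast_iff', Nat.mod_eq_of_lt hr]
    by_cases h1 : n.Coprime N ∧ n % 4 = r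
    · rw [if_pos h1, if_pos (e2.2 h1)]
    · rw [if_neg h1, if_neg (fun h2 => h1 (e2.1 h2)), zero_mul]
  rw [← e1]
  exact h

end Out

open Out

theorem out : Spec_OUT := by
  intro hE hB hT N e b a hL he ha1 hW
  classical
  have hpe := he.pe hL.pos
  have hrec : ∀ p : ℕ, p.Prime → ¬ p ∣ N → ∀ n,
      a (n * p) + (if p ∣ n then (e p : ℂ) * p * a (n / p) else 0) = w p * b p * a n := by
    intro p hp hN n
    have := congrFun (hW.2 p hp hN) n
    rw [tp, Pi.smul_apply, smul_eq_mul] at this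
    rw [this, w]
    beta_reduce
    split_ifs <;> ring
  have hex : ∀ n : ℕ, n.Coprime N → ∃ c : GaussianInt, a n = w n * c := by
    intro n
    induction n using Nat.strong_induction_on with
    | _ n ih =>
      intro hn
      by_cases h1 : n = 1
      · exact ⟨1, by rw [h1, ha1]; simp [w]⟩
      obtain ⟨p, hp, m, rfl⟩ := Nat.exists_prime_and_dvd h1
      have cp := (Nat.coprime_mul_iff_left.1 hn).1
      have cm := (Nat.coprime_mul_iff_left.1 hn).2
      have op := odd_of hL.four cp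
      have om := odd_of hL.four cm
      have m0 : 0 < m := by omega
      have hlt : m < p * m := (Nat.lt_mul_iff_one_lt_left m0).2 hp.one_lt
      obtain ⟨c, hc⟩ := ih m hlt cm
      have h2 := hrec p hp ((Nat.Prime.coprime_iff_not_dvd hp).1 cp) m
      have h3 := w_mul om op
      rw [mul_comm p m]
      by_cases h4 : p ∣ m
      · obtain ⟨k, rfl⟩ := h4
        rw [if_pos (dvd_mul_right _ _), Nat.mul_div_cancel_left _ hp.pos] at h2
        obtain ⟨c', hc'⟩ := ih k (lt_of_le_of_lt (Nat.le_mul_of_pos_left _ hp.pos) hlt)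
          (Nat.coprime_mul_iff_left.1 cm).2
        refine ⟨(if p % 4 = 3 ∧ (p * k) % 4 = 3 then 3 else 1) * b p * c - e p * p * c', ?_⟩
        rw [hc, hc', ← w_sq (k := k) op] at h2
        split_ifs at h3 ⊢ <;>
          simp only [map_sub, map_mul, map_ofNat, map_one, map_natCast] <;>
          linear_combination h2 + (b p : ℂ) * (c : ℂ) * h3
      · rw [if_neg h4] at h2
        refine ⟨(if p % 4 = 3 ∧ m % 4 = 3 then 3 else 1) * b p * c, ?_⟩
        rw [hc] at h2
        split_ifs at h3 ⊢ <;>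
          simp only [map_sub, map_mul, map_ofNat, map_one, map_natCast] <;>
          linear_combination h2 + (b p : ℂ) * (c : ℂ) * h3
  obtain ⟨c, hc, hc0⟩ : ∃ c : ℕ → GaussianInt, (∀ n : ℕ, n.Coprime N → a n = w n * c n) ∧
      ∀ n : ℕ, ¬ n.Coprime N → c n = 0 :=
    ⟨fun n => if h : n.Coprime N then (hex n h).choose else 0,
      fun n h => by simp only [dif_pos h]; exact (hex n h).choose_spec,
      fun n h => dif_neg h⟩
  have hap : ∀ p : ℕ, p.Prime → ¬ p ∣ N → a p = w p * b p := by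
    intro p hp hN
    have := hrec p hp hN 1
    rwa [if_neg hp.not_dvd_one, one_mul, add_zero, ha1, mul_one] at this
  refine ⟨c, ⟨?_, fun n hn => hc0 n fun h => hn (h.pow_right 3), fun p hp hN n => ?_, ?_, ?_,
    fun p hp => ?_⟩, fun p hp hN => ?_⟩
  · apply GaussianInt.toComplex_injective
    have := hc 1 (Nat.coprime_one_left N)
    rw [ha1] at this
    simpa [w] using this.symm
  · have hN' : ¬ p ∣ N := fun h => hN (h.trans (dvd_pow_self N (by norm_num)))
    have cp := (Nat.Prime.coprime_iff_not_dvd hp).2 hN'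
    by_cases cn : n.Coprime N
    · apply GaussianInt.toComplex_injective
      apply mul_left_cancel₀ (w_ne (n * p))
      have op := odd_of hL.four cp
      have h2 := hrec p hp hN' n
      have h3 := w_mul (odd_of hL.four cn) op
      have h5 : (b p : ℂ) = c p := mul_left_cancel₀ (w_ne p) ((hap p hp hN').symm.trans (hc p cp))
      rw [hc _ (Nat.coprime_mul_iff_left.2 ⟨cn, cp⟩), hc n cn, h5] at h2
      by_cases h4 : p ∣ n
      · obtain ⟨k, rfl⟩ := h4
        rw [if_pos (dvd_mul_right _ _), Nat.mul_div_cancel_left _ hp.pos] at h2 ⊢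
        rw [hc k (Nat.coprime_mul_iff_left.1 cn).2, ← w_sq (k := k) op] at h2
        split_ifs at h3 ⊢ <;>
          simp only [map_add, map_mul, map_ofNat, map_one, map_natCast] <;>
          linear_combination h2 + (c p : ℂ) * (c (p * k) : ℂ) * h3
      · rw [if_neg h4] at h2 ⊢
        split_ifs at h3 ⊢ <;>
          simp only [map_add, map_mul, map_ofNat, map_one, map_natCast, map_zero] <;>
          linear_combination h2 + (c p : ℂ) * (c n : ℂ) * h3
    · rw [hc0 n cn, hc0 _ fun h => cn (Nat.coprime_mul_iff_left.1 h).1, mul_zero, zero_add]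
      by_cases h4 : p ∣ n
      · obtain ⟨k, rfl⟩ := h4
        rw [if_pos (dvd_mul_right _ _), Nat.mul_div_cancel_left _ hp.pos,
          hc0 k fun h => cn (Nat.coprime_mul_iff_left.2 ⟨cp, h⟩), mul_zero]
      · rw [if_neg h4]
  · have h := twist hT hL hpe hW.1 1 (by norm_num) 1
    have e1 : (fun n : ℕ => if n.Coprime N ∧ n % 4 = 1 then 1 * a n else 0) =
        fun n => if n % 4 = 1 then (c n : ℂ) else 0 := by
      funext n
      by_cases h1 : n % 4 = 1
      · by_cases h2 : n.Coprime N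
        · rw [if_pos ⟨h2, h1⟩, if_pos h1, hc n h2, w, if_pos h1, one_mul, one_mul]
        · rw [if_neg fun h => h2 h.1, if_pos h1, hc0 n h2, map_zero]
      · rw [if_neg fun h => h1 h.2, if_neg h1]
    rwa [e1] at h
  · have h := twist hT hL hpe hW.1 3 (by norm_num) ((√3 : ℝ) : ℂ)⁻¹
    have e1 : (fun n : ℕ => if n.Coprime N ∧ n % 4 = 3 then ((√3 : ℝ) : ℂ)⁻¹ * a n else 0) =
        fun n => if n % 4 = 3 then (c n : ℂ) else 0 := by
      funext n
      by_cases h1 : n % 4 = 3
      · by_cases h2 : n.Coprime N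
        · have h3 := w_ne n
          rw [w, if_neg (by omega)] at h3
          rw [if_pos ⟨h2, h1⟩, if_pos h1, hc n h2, w, if_neg (by omega), ← mul_assoc,
            inv_mul_cancel₀ h3, one_mul]
        · rw [if_neg fun h => h2 h.1, if_pos h1, hc0 n h2, map_zero]
      · rw [if_neg fun h => h1 h.2, if_neg h1]
    rwa [e1] at h
  · by_cases cp : p.Coprime N
    · have hN' := (Nat.Prime.coprime_iff_not_dvd hp).1 cp
      obtain ⟨C, hC⟩ := hB N _ a hpe hW.1
      have hp0 : (0 : ℝ) < p := by exact_mod_cast hp.pos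
      have h1 := hecke_le (s := fun k => a (p ^ k)) (A := a p) (E := (e p : ℂ) * p) (C := C) hp0
        (by simpa using ha1) (by simp) (fun k => by
          have := hrec p hp hN' (p ^ (k + 1))
          rw [if_pos (dvd_pow_self p (by omega)), ← hap p hp hN', pow_succ p k,
            Nat.mul_div_cancel _ hp.pos] at this
          show a (p ^ k * p * p) = a p * a (p ^ k * p) - _ * a (p ^ k)
          linear_combination this) (fun k => by simpa using hC (p ^ k))
      have h2 : ‖(c p : ℂ)‖ ≤ 2 * p := by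
        rw [hc p cp, norm_mul] at h1
        have := mul_le_mul_of_nonneg_right (one_le_w p) (norm_nonneg (c p : ℂ))
        linarith
      have h3 : (((c p).norm : ℤ) : ℝ) ≤ 4 * (p : ℝ) ^ 2 := by
        rw [GaussianInt.intCast_real_norm, Complex.normSq_eq_norm_sq]
        nlinarith [norm_nonneg (c p : ℂ)]
      exact_mod_cast h3
    · rw [hc0 p cp, Zsqrtd.norm_zero]
      positivity
  · apply GaussianInt.toComplex_injective
    exact mul_left_cancel₀ (w_ne p)
      ((hc p ((Nat.Prime.coprime_iff_not_dvd hp).2 hN)).symm.trans (hap p hp hN))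

end Vale.Agent.P027M.Fo
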