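import Vale.Agent.P027M.Fo.Defs

/-! # P027 route M, block FORM: row SM1 -/

set_option linter.all false

noncomputable section

namespace Vale.Agent.P027M.Fo

theorem sm1 : Spec_SM1 := by
  classical
  intro _ hT hL N e a B hP hS
  induction B using induction_on_primes with
  | zero => exact fun h => absurd rfl h
  | one => exact fun _ h n hn => h n (by rwa [mul_one])
  | prime_mul p B hp ih =>
    intro h0 h
    have hB : B ≠ 0 := right_ne_zero_of_mul h0
    refine ih hB ?_
    have key : ∀ n : ℕ, n.Coprime (N * B) → n.Coprime p → a n = 0 := fun n h1 h2 =>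
      h n (by rw [mul_left_comm]; exact h2.mul_right h1)
    by_cases hd : p ∣ N * B
    · exact fun n hn => key n hn (hn.coprime_dvd_right hd)
    have hM : 0 < N * B := Nat.mul_pos hP.pos (Nat.pos_of_ne_zero hB)
    have h1 := hT N e a (N * B) (fun x => if IsUnit x then 1 else 0) hP hM hS (fun u x => by
      rw [← Units.val_pow_eq_pow_val]
      simp only [Units.isUnit_units_mul])
    have h2 := hL _ e _ p (hP.up (dvd_mul_right _ _) (Nat.mul_pos hP.pos (pow_pos hM 2))) h1 hp
      (fun k => hd (by
        rcases (Nat.Prime.dvd_mul hp).1 k with k | k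
        · exact k.mul_right _
        · exact hp.dvd_of_dvd_pow k)) (fun n hn => by
        by_cases hu : IsUnit (n : ZMod (N * B))
        · rw [key n ((ZMod.isUnit_iff_coprime _ _).1 hu)
            ((Nat.Prime.coprime_iff_not_dvd hp).2 hn).symm, mul_zero]
        · simp only [if_neg hu, zero_mul])
    intro n hn
    have h3 := congrFun h2 n
    simpa only [if_pos ((ZMod.isUnit_iff_coprime _ _).2 hn), one_mul, Pi.zero_apply] using h3

end Vale.Agent.P027M.Fo
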