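import Vale.Agent.P027M.Fo.Defs

/-! # P027 route M, block FORM: strong multiplicity one -/

set_option linter.all false

noncomputable section

namespace Vale.Agent.P027M.Fo

open Vale.Agent.P022.H231.L3

namespace Smo

/-- the operator `U_q` on sequences -/
def up (q : ℕ) (a : ℕ → ℂ) : ℕ → ℂ := fun n => a (n * q)

theorem tp_add (e : ℤ → ℂ) (p : ℕ) (a b : ℕ → ℂ) : tp e p (a + b) = tp e p a + tp e p b := by
  funext n
  simp only [tp, Pi.add_apply]
  split_ifs <;> ring

theorem tp_smul (e : ℤ → ℂ) (p : ℕ) (z : ℂ) (a : ℕ → ℂ) : tp e p (z • a) = z • tp e p a := by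
  funext n
  simp only [tp, Pi.smul_apply, smul_eq_mul]
  split_ifs <;> ring

theorem tp_up (e : ℤ → ℂ) {p q : ℕ} (h : p.Coprime q) (a : ℕ → ℂ) :
    tp e p (up q a) = up q (tp e p a) := by
  funext n
  simp only [tp, up]
  rw [Nat.mul_right_comm n p q]
  by_cases k : p ∣ n
  · rw [if_pos k, if_pos (k.mul_right q), Nat.div_mul_right_comm k]
  · rw [if_neg k, if_neg fun k' => k (h.dvd_of_dvd_mul_right k')]

theorem tp_comm (e : ℤ → ℂ) {p q : ℕ} (hp : p.Prime) (hq : q.Prime) (a : ℕ → ℂ) :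
    tp e p (tp e q a) = tp e q (tp e p a) := by
  by_cases hpq : p = q
  · rw [hpq]
  have h : p.Coprime q := (Nat.coprime_primes hp hq).2 hpq
  funext n
  simp only [tp]
  rw [Nat.mul_right_comm n p q]
  by_cases k : p ∣ n <;> by_cases k' : q ∣ n
  · obtain ⟨m, rfl⟩ := h.mul_dvd_of_dvd_of_dvd k k'
    have e1 : p * q * m / p = q * m := by rw [mul_assoc, Nat.mul_div_cancel_left _ hp.pos]
    have e2 : p * q * m / q = p * m := by
      rw [mul_comm p q, mul_assoc, Nat.mul_div_cancel_left _ hq.pos]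
    have e3 : p * q * m * p / q = p * m * p := by
      rw [show p * q * m * p = q * (p * m * p) by ring, Nat.mul_div_cancel_left _ hq.pos]
    have e4 : p * q * m * q / p = q * m * q := by
      rw [show p * q * m * q = p * (q * m * q) by ring, Nat.mul_div_cancel_left _ hp.pos]
    rw [if_pos k, if_pos k', if_pos (k.mul_right q), if_pos (k'.mul_right p), e1, e2, e3, e4,
      if_pos (dvd_mul_right q m), if_pos (dvd_mul_right p m), Nat.mul_div_cancel_left _ hq.pos,
      Nat.mul_div_cancel_left _ hp.pos]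
    ring
  · rw [if_pos k, if_neg k', if_pos (k.mul_right q),
      if_neg fun j => k' (h.symm.dvd_of_dvd_mul_right j),
      if_neg fun j => k' (j.trans (Nat.div_dvd_of_dvd k)), Nat.div_mul_right_comm k]
    ring
  · rw [if_neg k, if_pos k', if_pos (k'.mul_right p),
      if_neg fun j => k (h.dvd_of_dvd_mul_right j),
      if_neg fun j => k (j.trans (Nat.div_dvd_of_dvd k')), Nat.div_mul_right_comm k']
    ring
  · rw [if_neg k, if_neg k', if_neg fun j => k (h.dvd_of_dvd_mul_right j),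
      if_neg fun j => k' (h.symm.dvd_of_dvd_mul_right j)]

theorem c4_mul (m n : ℕ) : c4 (m * n) = c4 m * c4 n := by
  unfold c4
  rw [Nat.mul_mod]
  have hm : m % 4 < 4 := Nat.mod_lt _ (by norm_num)
  have hn : n % 4 < 4 := Nat.mod_lt _ (by norm_num)
  generalize m % 4 = x at hm
  generalize n % 4 = y at hn
  interval_cases x <;> interval_cases y <;> simp

theorem c4_sq {l : ℕ} (h : ¬ 2 ∣ l) : c4 l * c4 l = 1 := by
  unfold c4
  have : l % 4 = 1 ∨ l % 4 = 3 := by omega
  rcases this with k | k <;> simp [k]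

theorem tp_c4 (e : ℤ → ℂ) {l : ℕ} (h : ¬ 2 ∣ l) (a : ℕ → ℂ) :
    tp e l (fun n => c4 n * a n) = fun n => c4 l * c4 n * tp e l a n := by
  funext n
  simp only [tp]
  rw [c4_mul]
  split_ifs with k
  · have : c4 (n / l) = c4 l * c4 n := by
      conv_rhs => rw [← Nat.div_mul_cancel k, c4_mul]
      linear_combination (-c4 (n / l)) * c4_sq h
    rw [this]
    ring
  · ring

variable {N B : ℕ} {e : ℤ → ℂ} {lam a b : ℕ → ℂ}

theorem wl_add (hE : EXP) (ha : Wl N e B lam a) (hb : Wl N e B lam b) : Wl N e B lam (a + b) :=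
  ⟨hE.add _ _ _ _ ha.1 hb.1, fun l hl k => by rw [tp_add, ha.2 l hl k, hb.2 l hl k, smul_add]⟩

theorem wl_smul (hE : EXP) (z : ℂ) (ha : Wl N e B lam a) : Wl N e B lam (z • a) :=
  ⟨hE.smul _ _ _ _ ha.1, fun l hl k => by rw [tp_smul, ha.2 l hl k, smul_comm]⟩

theorem wl_tp (hH : HEC) (he : Pe N e) (ha : Wl N e B lam a) {p : ℕ} (hp : p.Prime)
    (k : ¬ p ∣ N) : Wl N e B lam (tp e p a) := by
  obtain ⟨f, hf, hx⟩ := ha.1
  obtain ⟨d, hd⟩ := IsDel.exists 1 N p (by
    rw [one_mul]; exact Nat.isCoprime_iff_coprime.2 (hp.coprime_iff_not_dvd.2 k))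
  refine ⟨⟨_, (hH N e f a p hp he hf hx).1 k d hd⟩, fun l hl j => ?_⟩
  rw [tp_comm e hl hp, ha.2 l hl j, tp_smul]

theorem wl_up (hH : HEC) (he : Pe N e) (hB : N ∣ B) (ha : Wl N e B lam a) {q : ℕ} (hq : q.Prime)
    (k : q ∣ N) : Wl N e B lam (up q a) := by
  obtain ⟨f, hf, hx⟩ := ha.1
  refine ⟨(hH N e f a q hq he hf hx).2 k, fun l hl j => ?_⟩
  have : l.Coprime q := (Nat.coprime_primes hl hq).2 fun h => j (h ▸ k.trans hB)
  rw [tp_up e this, ha.2 l hl j]
  rfl

/-- a form in the eigenspace with `a 1 = 0` vanishes at the integers prime to the level -/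
theorem van (hE : EXP) (hS : SM1) (he : Pe N e) (hB : B ≠ 0) (ha : Wl N e B lam a)
    (h1 : a 1 = 0) : ∀ n : ℕ, n.Coprime N → a n = 0 := by
  refine hS N e a B he ha.1 hB fun n hn => ?_
  replace hn : n.Coprime B := hn.coprime_mul_left_right
  induction n using Nat.strong_induction_on with
  | _ n ih =>
  rcases eq_or_ne n 0 with rfl | h0
  · exact hE.zero _ _ _ ha.1
  rcases eq_or_ne n 1 with rfl | h1'
  · exact h1
  obtain ⟨l, hl, m, rfl⟩ := Nat.exists_prime_and_dvd h1'
  have m0 : 0 < m := Nat.pos_of_ne_zero fun h => h0 (by rw [h, mul_zero])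
  have hm : m < l * m := by nlinarith [hl.two_le]
  have hmc : m.Coprime B := hn.coprime_mul_left
  have k := congrFun (ha.2 l hl (hl.coprime_iff_not_dvd.1 hn.coprime_mul_right)) m
  simp only [tp, Pi.smul_apply, smul_eq_mul] at k
  rw [ih m hm hmc, mul_zero, mul_comm m l] at k
  split_ifs at k with j
  · rwa [ih (m / l) (lt_of_le_of_lt (Nat.div_le_self _ _) hm)
      (hmc.coprime_dvd_left (Nat.div_dvd_of_dvd j)), mul_zero, add_zero] at k
  · rwa [add_zero] at k

theorem norm1 (hE : EXP) (hH : HEC) (he : Pe N e) (hB : N ∣ B) (n : ℕ) :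
    ∀ a, Wl N e B lam a → a n ≠ 0 → ∃ a0, Wl N e B lam a0 ∧ a0 1 = 1 := by
  induction n using Nat.strong_induction_on with
  | _ n ih =>
  intro a ha hn
  rcases eq_or_ne n 0 with rfl | h0
  · exact absurd (hE.zero _ _ _ ha.1) hn
  rcases eq_or_ne n 1 with rfl | h1'
  · exact ⟨_, wl_smul hE (a 1)⁻¹ ha, inv_mul_cancel₀ hn⟩
  obtain ⟨l, hl, m, rfl⟩ := Nat.exists_prime_and_dvd h1'
  have m0 : 0 < m := Nat.pos_of_ne_zero fun h => h0 (by rw [h, mul_zero])
  have hm : m < l * m := by nlinarith [hl.two_le]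
  rw [mul_comm l m] at hn
  by_cases k : l ∣ N
  · exact ih m hm _ (wl_up hH he hB ha hl k) hn
  by_cases j : a (m / l) = 0
  · refine ih m hm _ (wl_tp hH he ha hl k) ?_
    simp only [tp, j, mul_zero, ite_self, add_zero]
    exact hn
  · exact ih (m / l) (lt_of_le_of_lt (Nat.div_le_self _ _) hm) a ha j

theorem eig (hE : EXP) (hH : HEC) (hS : SM1) (he : Pe N e) (hB : N ∣ B) (h0 : B ≠ 0)
    (ha : Wl N e B lam a) (h1 : a 1 = 1) {p : ℕ} (hp : p.Prime) (k : ¬ p ∣ N) (n : ℕ) :
    ∀ b, Wl N e B lam b → tp e p b n = a p * b n := by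
  induction n using Nat.strong_induction_on with
  | _ n ih =>
  intro b hb
  have hc := wl_add hE (wl_tp hH he hb hp k) (wl_smul hE (-a p) hb)
  have fin : (tp e p b + (-a p) • b) n = 0 → tp e p b n = a p * b n := fun h => by
    simp only [Pi.add_apply, Pi.smul_apply, smul_eq_mul] at h
    linear_combination h
  rcases eq_or_ne n 0 with rfl | n0
  · exact fin (hE.zero _ _ _ hc.1)
  by_cases hn : n.Coprime N
  · refine fin (van hE hS he h0 hc ?_ n hn)
    have := van hE hS he h0 (wl_add hE hb (wl_smul hE (-b 1) ha)) (by simp [h1]) p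
      (hp.coprime_iff_not_dvd.2 k)
    simp only [Pi.add_apply, Pi.smul_apply, smul_eq_mul, tp, one_mul, hp.not_dvd_one, if_false,
      add_zero] at this ⊢
    linear_combination this
  · obtain ⟨q, hq, ⟨m, rfl⟩, j⟩ := Nat.Prime.not_coprime_iff_dvd.1 hn
    have m0 : 0 < m := Nat.pos_of_ne_zero fun h => n0 (by rw [h, mul_zero])
    have := ih m (by nlinarith [hq.two_le]) _ (wl_up hH he hB hb hq j)
    rw [tp_up e ((Nat.coprime_primes hp hq).2 fun h => k (h ▸ j))] at this
    rw [mul_comm q m]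
    exact this

/-- the character modulo four on `ZMod 4` -/
def th (x : ZMod 4) : ℂ := c4 x.val

theorem th_cast (n : ℕ) : th n = c4 n := by
  simp only [th, c4, ZMod.val_natCast, Nat.mod_mod]

theorem sq4 (u : (ZMod 4)ˣ) : (u : ZMod 4) ^ 2 = 1 := by
  revert u
  decide

end Smo

open Smo

theorem smo : Spec_SMO := by
  intro hE hH hT hS N e B lam he hB h0
  refine ⟨fun a ha hn => ?_, fun a0 ha h1 b hb p hp k => ?_, fun h4 a0 a1 ha hb h1 h1' n hn => ?_⟩
  · obtain ⟨n, hn⟩ := Function.ne_iff.1 hn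
    exact norm1 hE hH he hB n a ha hn
  · exact funext fun n => eig hE hH hS he hB h0 ha h1 hp k n b hb
  · have hq := hT N e a0 4 th he (by norm_num) ha.1 fun u x => by rw [sq4, one_mul]
    simp only [th_cast] at hq
    have he' : Pe (N * 4 ^ 2) e := he.up (dvd_mul_right _ _) (by have := he.pos; positivity)
    have w0 : Wl (N * 4 ^ 2) e B (fun l => c4 l * lam l) fun n => c4 n * a0 n := by
      refine ⟨hq, fun l hl j => ?_⟩
      have l2 : ¬ 2 ∣ l := fun h => j (((Nat.prime_dvd_prime_iff_eq Nat.prime_two hl).1 h) ▸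
        ((show 2 ∣ 4 by norm_num).trans h4).trans hB)
      rw [tp_c4 e l2, ha.2 l hl j]
      funext m
      simp only [Pi.smul_apply, smul_eq_mul]
      ring
    have w1 : Wl (N * 4 ^ 2) e B (fun l => c4 l * lam l) a1 :=
      ⟨hE.up _ _ _ _ (dvd_mul_right _ _) hb.1, hb.2⟩
    have := van hE hS he' h0 (wl_add hE w1 (wl_smul hE (-1) w0)) (by simp [h1, h1', c4]) n
      (hn.mul_right ((hn.coprime_dvd_right h4).pow_right 2))
    simp only [Pi.add_apply, Pi.smul_apply, smul_eq_mul] at this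
    linear_combination this

end Vale.Agent.P027M.Fo
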