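import Vale.Agent.P027M.Fo.Defs

/-! # P027 route M, block FORM: row STA -/

set_option linter.all false

open UpperHalfPlane
open scoped MatrixGroups ModularForm ComplexConjugate

noncomputable section

namespace Vale.Agent.P027M.Fo

open Vale.Agent.P022.H218.L3 Vale.Agent.P022.H231.L3 Vale.Agent.P027M.M

namespace Sta

/-- `(a b; c d) ↦ (a -b; -c d)` -/
def cj (γ : SL(2, ℤ)) : SL(2, ℤ) := ⟨!![γ 0 0, -γ 0 1; -γ 1 0, γ 1 1], by
  have := γ.det_coe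
  rw [Matrix.det_fin_two] at this
  rw [Matrix.det_fin_two_of]
  linear_combination this⟩

theorem cj00 (γ : SL(2, ℤ)) : cj γ 0 0 = γ 0 0 := rfl
theorem cj01 (γ : SL(2, ℤ)) : cj γ 0 1 = -γ 0 1 := rfl
theorem cj10 (γ : SL(2, ℤ)) : cj γ 1 0 = -γ 1 0 := rfl
theorem cj11 (γ : SL(2, ℤ)) : cj γ 1 1 = γ 1 1 := rfl

theorem J_mul (γ : SL(2, ℤ)) : J * (γ : GL (Fin 2) ℝ) = (cj γ : GL (Fin 2) ℝ) * J := by
  ext i j
  fin_cases i <;> fin_cases j <;>
    simp [Matrix.mul_apply, Fin.sum_univ_two, cj00, cj01, cj10, cj11]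

theorem slash_J_apply (k : ℤ) (f : ℍ → ℂ) (τ : ℍ) : (f ∣[k] J) τ = conj (f (J • τ)) := by
  simp [ModularForm.slash_apply]

theorem slash_J_slash (k : ℤ) (f : ℍ → ℂ) (γ : SL(2, ℤ)) :
    (f ∣[k] J) ∣[k] γ = (f ∣[k] cj γ) ∣[k] J := by
  rw [ModularForm.SL_slash, ModularForm.SL_slash, ← SlashAction.slash_mul, ← SlashAction.slash_mul,
    J_mul]

theorem q_J (τ : ℍ) :
    Function.Periodic.qParam 1 (J • τ : ℍ) = conj (Function.Periodic.qParam 1 τ) := by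
  rw [coe_J_smul, Function.Periodic.qParam, Function.Periodic.qParam, ← Complex.exp_conj]
  congr 1
  simp [map_ofNat]

end Sta

open Sta

theorem Zer.J {f : ℍ → ℂ} (h : Zer f) : Zer (f ∣[(2 : ℤ)] J) := fun γ => by
  rw [slash_J_slash]
  exact IsZeroAtImInfty.slash 2 (by simp) (h _)

theorem Cusp.J {N : ℕ} {e : ℤ → ℂ} {f : ℍ → ℂ} (h : Cusp N e f) :
    Cusp N (fun d => conj (e d)) (f ∣[(2 : ℤ)] J) :=
  ⟨slash_mem' h.hol 2 _, fun γ hγ => by
    rw [slash_J_slash, h.law _ (by rw [cj10]; exact hγ.neg_right), ModularForm.smul_slash, cj11,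
      sigma_J]
    rfl, h.zer.J⟩

theorem Ex.J {a : ℕ → ℂ} {f : ℍ → ℂ} (h : Ex a f) :
    Ex (fun n => conj (a n)) (f ∣[(2 : ℤ)] J) := fun τ => by
  have := (h (UpperHalfPlane.J • τ)).star
  rw [slash_J_apply]
  simpa [q_J] using this

theorem sta : STA := fun _ _ _ ⟨_, hf, ha⟩ => ⟨_, hf.J, ha.J⟩

end Vale.Agent.P027M.Fo
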