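import Vale.Agent.P027M.Fo.Defs
import Mathlib.Analysis.Fourier.ZMod

/-! # P027 route M, block FORM, row TWI: twists by periodic functions -/

set_option linter.all false

open UpperHalfPlane
open scoped MatrixGroups ModularForm Real

noncomputable section

namespace Vale.Agent.P027M.Fo

open Vale.Agent.P022.H218.L3 Vale.Agent.P022.H231.L3 Vale.Agent.P027M.M

namespace Twi

variable {m : ℕ}

theorem A_pos (hm : 0 < m) (j : ℤ) : 0 < (!![(m : ℤ), j; 0, m] : M2).det := by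
  rw [Matrix.det_fin_two_of]
  simpa using hm.ne'

/-- the translate of `f` by `j / m` -/
def tr (hm : 0 < m) (j : ℤ) (f : ℍ → ℂ) : ℍ → ℂ := f ∣[(2 : ℤ)] gl _ (A_pos hm j)

theorem sg {A : M2} (hA : 0 < A.det) (z : ℂ) : σ (gl A hA) z = z := by
  simp only [σ, if_pos (gl_pos A hA)]
  rfl

theorem step (hm : 0 < m) {N : ℕ} {e : ℤ → ℂ} {f : ℍ → ℂ} (he : Pe N e) (hf : Cusp N e f)
    {γ : SL(2, ℤ)} (hγ : ((N * m ^ 2 : ℕ) : ℤ) ∣ γ 1 0) {j j' : ℤ}
    (hj : (m : ℤ) ∣ j * γ 1 1 - γ 0 0 * j') : tr hm j f ∣[(2 : ℤ)] γ = e (γ 1 1) • tr hm j' f := by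
  obtain ⟨k, hk⟩ := hγ
  obtain ⟨t, ht⟩ := hj
  push_cast at hk
  have hd : γ 0 0 * γ 1 1 - γ 0 1 * γ 1 0 = 1 := by
    have := γ.det_coe
    rwa [Matrix.det_fin_two] at this
  let g : SL(2, ℤ) := ⟨!![γ 0 0 + j * N * m * k, γ 0 1 + t - j * N * k * j';
      γ 1 0, γ 1 1 - N * m * k * j'], by
    rw [Matrix.det_fin_two_of]
    linear_combination hd + N * m * k * ht - (t - j * N * k * j') * hk⟩
  have e1 : !![(m : ℤ), j; 0, m] * (γ : M2) = (g : M2) * !![(m : ℤ), j'; 0, m] := by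
    ext a b
    fin_cases a <;> fin_cases b <;> simp [g, Matrix.mul_apply, Fin.sum_univ_two]
    · linear_combination j * hk
    · linear_combination ht
    · ring
    · linear_combination (-j') * hk
  have p1 : 0 < (!![(m : ℤ), j; 0, m] * (γ : M2)).det := by
    rw [Matrix.det_mul]; exact mul_pos (A_pos hm j) (SL_pos γ)
  unfold tr
  rw [← slash_gl_SL 2 f γ _ p1, gl_congr e1 p1 (e1 ▸ p1), slash_SL_gl 2 f g (A_pos hm j'),
    hf.law g ⟨m ^ 2 * k, (by linear_combination hk : γ 1 0 = _)⟩, ModularForm.smul_slash, sg,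
    he.per (g 1 1) (γ 1 1) ⟨-(m * k * j'), (by ring : γ 1 1 - N * m * k * j' - γ 1 1 = _)⟩]

theorem ex [NeZero m] (hm : 0 < m) {a : ℕ → ℂ} {f : ℍ → ℂ} (h : Ex a f) (j : ℤ) :
    Ex (fun n => ZMod.stdAddChar ((j : ZMod m) * (n : ZMod m)) * a n) (tr hm j f) := fun τ => by
  have hC : (m : ℂ) ≠ 0 := by exact_mod_cast hm.ne'
  have e0 : denom (gl _ (A_pos hm j)) τ = m := by simp [denom, gl_coe]
  have e1 : tr hm j f τ = f (gl _ (A_pos hm j) • τ) := by
    have e2 : (gl _ (A_pos hm j)).det.val = (m : ℝ) ^ 2 := by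
      show (Matrix.map _ (Int.cast : ℤ → ℝ)).det = _
      rw [det_map, Matrix.det_fin_two_of]
      push_cast
      ring
    rw [tr, ModularForm.slash_apply, sg, e0, e2, abs_of_nonneg (sq_nonneg _)]
    push_cast
    field_simp
  have e3 : ((gl _ (A_pos hm j) • τ : ℍ) : ℂ) = τ + j / m := by
    rw [coe_smul_of_det_pos (gl_pos _ _), e0]
    simp [num, gl_coe]
    field_simp
  rw [e1]
  convert h (gl _ (A_pos hm j) • τ) using 2 with n
  have e4 : (j : ZMod m) * n = ((j * n : ℤ) : ZMod m) := by push_cast; rfl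
  beta_reduce
  rw [e3, e4, ZMod.stdAddChar_coe]
  simp only [Function.Periodic.qParam, ← Complex.exp_nat_mul]
  rw [mul_right_comm, ← Complex.exp_add, mul_comm]
  congr 2
  push_cast
  ring

end Twi

open Twi in
theorem twi : Spec_TWI := by
  rintro hE N e a m θ he hm ⟨f, hf, ha⟩ hθ
  haveI : NeZero m := ⟨hm.ne'⟩
  have sl : ∀ γ : SL(2, ℤ), (∑ j : ZMod m, ((m : ℂ)⁻¹ * ZMod.dft θ j) • tr hm j.val f) ∣[(2 : ℤ)] γ =
      ∑ j : ZMod m, ((m : ℂ)⁻¹ * ZMod.dft θ j) • (tr hm j.val f ∣[(2 : ℤ)] γ) := fun γ => by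
    simp only [SlashAction.sum_slash, ModularForm.SL_smul_slash]
  refine ⟨∑ j : ZMod m, ((m : ℂ)⁻¹ * ZMod.dft θ j) • tr hm j.val f,
    ⟨Hol.sum_mem fun j _ => Hol.smul_mem (slash_mem' hf.hol 2 _) _, fun γ hγ => ?_, fun γ => ?_⟩,
    fun τ => ?_⟩
  · have hd : (γ 0 0 : ZMod m) * γ 1 1 = 1 := by
      have h1 := γ.det_coe
      rw [Matrix.det_fin_two] at h1
      have h2 : (γ 1 0 : ZMod m) = 0 := (ZMod.intCast_zmod_eq_zero_iff_dvd _ _).2
        (Dvd.dvd.trans ⟨N * m, by push_cast; ring⟩ hγ)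
      have h3 := congrArg (Int.cast : ℤ → ZMod m) h1
      push_cast at h3
      linear_combination h3 + (γ 0 1 : ZMod m) * h2
    let u : (ZMod m)ˣ := ⟨γ 1 1, γ 0 0, by rw [mul_comm, hd], hd⟩
    rw [sl, Finset.smul_sum]
    refine Fintype.sum_equiv (u ^ 2).mulLeft _ _ fun j => ?_
    have h1 := ZMod.dft_comp_unitMul θ (u⁻¹ ^ 2) j
    simp only [Units.val_pow_eq_pow_val, hθ u⁻¹] at h1
    rw [step hm he hf hγ (j' := ((u ^ 2).mulLeft j).val) ?_, smul_comm]
    · congr 3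
    · rw [← ZMod.intCast_zmod_eq_zero_iff_dvd]
      simp only [Units.mulLeft_apply, Units.val_pow_eq_pow_val, u]
      push_cast
      simp only [ZMod.natCast_val, ZMod.cast_id', id]
      linear_combination (-j * (γ 1 1 : ZMod m)) * hd
  · rw [sl]
    exact (Filter.zeroAtFilterSubmodule ℂ atImInfty).sum_mem fun j _ =>
      Submodule.smul_mem _ _ (hE.zer f hf.zer _ _ γ)
  · have h := hasSum_sum (s := Finset.univ) fun (j : ZMod m) _ =>
      (ex hm ha j.val τ).mul_left ((m : ℂ)⁻¹ * ZMod.dft θ j)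
    simp only [Finset.sum_apply, Pi.smul_apply, smul_eq_mul]
    refine h.congr_fun fun n => ?_
    have h1 := ZMod.invDFT_apply (ZMod.dft θ) n
    rw [LinearEquiv.symm_apply_apply] at h1
    rw [h1]
    simp only [smul_eq_mul, Finset.mul_sum, Finset.sum_mul, Int.cast_natCast,
      ZMod.natCast_zmod_val]
    exact Finset.sum_congr rfl fun j _ => by ring

end Vale.Agent.P027M.Fo
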