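import Vale.Agent.P027M.Fo.Rat
import Vale.Agent.P027M.Fo.An1
import Vale.Agent.P027M.Fo.Anf
import Vale.Agent.P027M.Fo.Bnd
import Vale.Agent.P027M.Fo.Dia
import Vale.Agent.P027M.Fo.Exp
import Vale.Agent.P027M.Fo.Hec
import Vale.Agent.P027M.Fo.Lem
import Vale.Agent.P027M.Fo.Out
import Vale.Agent.P027M.Fo.Sm1
import Vale.Agent.P027M.Fo.Smo
import Vale.Agent.P027M.Fo.Sta
import Vale.Agent.P027M.Fo.Twi
import Vale.Agent.P027M.Fo.Xf
import Vale.Agent.P027M.B.Hol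

/-! # P027 route M, block FORM: assembly -/

set_option linter.all false

open scoped MatrixGroups

noncomputable section

namespace Vale.Agent.P027M.Fo

open Vale.Agent.P027M.M

theorem bnd0 : BND := bnd exp_ok

theorem hec0 : HEC := hec stp exp_ok

theorem twi0 : TWI := twi exp_ok

theorem lem0 : LEM := lem exp_ok

theorem sm10 : SM1 := sm1 exp_ok twi0 lem0

theorem smo0 : SMO := smo exp_ok hec0 twi0 sm10

theorem out0 : OUT := out exp_ok bnd0 twi0

theorem an10 : AN1 := an1 exp_ok B.Hol.hol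

theorem anf0 : ANF := anf exp_ok sta an10

theorem dia0 : DIA := dia stp

theorem dec0 (hE : ES.ESC) : DEC := dec hE exp_ok hec0 sta

theorem rat0 (hE : ES.ESC) : RAT := rat stp (dec0 hE) smo0

/-- **FORM** from an integral eigenclass -/
theorem formZ (hE : ES.ESC) {S : Sys} {H : Subgroup (ZMod S.N)ˣ} {B : ℕ} (hL : LvH S.N H)
    (hB : S.N ∣ B) (hB0 : B ≠ 0) {u : SL(2, ℤ) → QO ℤ}
    (hu : EigZ S.N (GH S.N H) B (S.a iO wO) u) :
    ∃ (e : ℤ → GaussianInt) (c : ℕ → GaussianInt), Chr S.N e ∧ FormS (S.N ^ 3) e c ∧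
      ∀ p : ℕ, p.Prime → ¬ p ∣ B → c p = S.b p := by
  obtain ⟨e, u', he, hu', hD⟩ := dia0 _ H B _ u hL hB hu
  obtain ⟨b, a, hb, ha, hW⟩ := rat0 hE S H B e u' hL hB hB0 he hu' hD
  obtain ⟨c, hc, hcb⟩ := out0 _ e b a hL.lv he ha hW
  exact ⟨e, c, he, hc, fun p hp k => (hcb p hp fun k' => k (k'.trans hB)).trans (hb p hp k)⟩

end Vale.Agent.P027M.Fo
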