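import Vale.Agent.P027M.Fo.Defs
import Vale.Agent.P027M.ES.Cusp
import Vale.Agent.P027M.ES.Onto
import Vale.Agent.P027M.ES.Inj
import Vale.Agent.P027M.M.Grp
import Vale.Agent.P027M.M.Step

/-! # P027 route M, block FORM, row DEC -/

set_option linter.all false

open UpperHalfPlane
open scoped MatrixGroups ModularForm Real ComplexConjugate

noncomputable section

namespace Vale.Agent.P027M.Fo

open Vale.Agent.P022.H218.L3 Vale.Agent.P022.H231.L3 Vale.Agent.P027M.M Vale.Agent.P027M.ES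

theorem stp : STP := step

theorem Pe.conj {N : ℕ} {e : ℤ → ℂ} (h : Pe N e) : Pe N fun d => conj (e d) :=
  ⟨h.pos, fun a b k => by rw [h.per a b k], by rw [h.one, map_one]⟩

theorem mem_GH_of {N : ℕ} {H : Subgroup (ZMod N)ˣ} {γ g : SL(2, ℤ)} (h : γ ∈ GH N H)
    (h1 : (N : ℤ) ∣ g 1 0) (h2 : (N : ℤ) ∣ g 1 1 - γ 1 1) : g ∈ GH N H := by
  obtain ⟨-, a, ha, k⟩ := mem_GH.1 h
  refine mem_GH.2 ⟨h1, a, ha, k.trans ?_⟩
  have := (ZMod.intCast_zmod_eq_zero_iff_dvd _ _).2 h2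
  push_cast at this
  exact (sub_eq_zero.1 this).symm

theorem exists_del {N p : ℕ} (hp : p.Prime) (h : ¬ p ∣ N) : ∃ d, IsDel 1 N p d :=
  IsDel.exists 1 N p (by rw [one_mul]; exact Nat.isCoprime_iff_coprime.2 (hp.coprime_iff_not_dvd.2 h))

/-- the primitive of `T_l f` -/
def TF {l : ℕ} (h0 : 0 < l) (d : SL(2, ℤ)) (F : ℍ → ℂ) : ℍ → ℂ :=
  ∑ i, fun τ => F (gl (al 1 l d i) (al_pos h0 d i) • τ)

theorem prim_T {l : ℕ} (h0 : 0 < l) (d : SL(2, ℤ)) {f F : ℍ → ℂ} (h : ES.Prim f F) :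
    ES.Prim (Tf h0 d f) (TF h0 d F) :=
  ES.Prim.sum _ fun i _ => h.comp _ (by
    rw [← Matrix.GeneralLinearGroup.val_det_apply]
    exact gl_pos _ _)

theorem smul_step {A B : M2} (hA : 0 < A.det) (hB : 0 < B.det) {γ g : SL(2, ℤ)}
    (h : A * (γ : M2) = (g : M2) * B) (τ : ℍ) : gl A hA • γ • τ = g • gl B hB • τ := by
  have h1 : 0 < (A * (γ : M2)).det := by
    rw [Matrix.det_mul]; exact mul_pos hA (SL_pos γ)
  have h2 : 0 < ((g : M2) * B).det := by rw [← h]; exact h1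
  have h3 := gl_congr h h1 h2
  rw [gl_mul hA (SL_pos γ), gl_mul (SL_pos g) hB, gl_SL, gl_SL] at h3
  have h4 := congrArg (fun x : GL (Fin 2) ℝ => x • τ) h3
  simp only [mul_smul] at h4
  exact h4

theorem TF_step {l : ℕ} (h0 : 0 < l) {d γ : SL(2, ℤ)} {s : Equiv.Perm (Option (Fin l))}
    {g : Option (Fin l) → SL(2, ℤ)}
    (h : ∀ i, al 1 l d i * (γ : M2) = (g i : M2) * al 1 l d (s i)) (F : ℍ → ℂ) (τ : ℍ) :
    TF h0 d F (γ • τ) - TF h0 d F τ =
      ∑ i, (F (g i • gl (al 1 l d (s i)) (al_pos h0 d _) • τ) -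
        F (gl (al 1 l d (s i)) (al_pos h0 d _) • τ)) := by
  rw [Finset.sum_sub_distrib, Equiv.sum_comp s fun j => F (gl (al 1 l d j) (al_pos h0 d j) • τ)]
  simp only [TF, Finset.sum_apply]
  congr 1
  exact Finset.sum_congr rfl fun i _ => by rw [smul_step _ _ (h i)]

theorem per_step {l : ℕ} (h0 : 0 < l) {d γ : SL(2, ℤ)} {s : Equiv.Perm (Option (Fin l))}
    {g : Option (Fin l) → SL(2, ℤ)}
    (h : ∀ i, al 1 l d i * (γ : M2) = (g i : M2) * al 1 l d (s i)) (F G : ℍ → ℂ) (τ : ℍ) :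
    per (TF h0 d F) (TF h0 d G) γ τ =
      ∑ i, per F G (g i) (gl (al 1 l d (s i)) (al_pos h0 d _) • τ) := by
  rw [per, TF_step h0 h, TF_step h0 h, map_sum, ← Finset.sum_add_distrib]
  rfl

theorem Cusp.isCF {N : ℕ} {e : ℤ → ℂ} {f : ℍ → ℂ} (h : Cusp N e f) {Γ : Subgroup SL(2, ℤ)}
    (hΓ : ∀ γ ∈ Γ, (N : ℤ) ∣ γ 1 0 ∧ e (γ 1 1) • f = f) : IsCF Γ f :=
  ⟨⟨h.hol, fun γ k => (h.law γ (hΓ γ k).1).trans (hΓ γ k).2,
    fun γ => (h.zer γ).isBoundedAtImInfty⟩, h.zer⟩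

theorem Tf_zero {l : ℕ} (h0 : 0 < l) (d : SL(2, ℤ)) : Tf h0 d 0 = 0 :=
  Finset.sum_eq_zero fun i _ => SlashAction.zero_slash _ _

theorem Ex.smul {a : ℕ → ℂ} {f : ℍ → ℂ} (h : Ex a f) (z : ℂ) : Ex (z • a) (z • f) := fun τ => by
  simpa [mul_assoc] using (h τ).mul_left z

theorem Ex.eq {a : ℕ → ℂ} {f g : ℍ → ℂ} (h : Ex a f) (h' : Ex a g) : f = g :=
  funext fun τ => (h τ).unique (h' τ)

theorem ex_zero : Ex 0 0 := fun τ => by simpa using hasSum_zero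

theorem tp_conj (e : ℤ → ℂ) (p : ℕ) (a : ℕ → ℂ) (z : ℂ) :
    tp e p (fun n => conj (a n)) = z • (fun n => conj (a n)) ↔
      tp (fun d => conj (e d)) p a = conj z • a := by
  have k : ∀ n, conj (tp (fun d => conj (e d)) p a n) = tp e p (fun n => conj (a n)) n := by
    intro n
    unfold tp
    split_ifs <;> simp
  constructor
  · intro h
    funext n
    apply star_injective
    have := congrFun h n
    rw [← k] at this
    simpa using this
  · intro h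
    funext n
    rw [← k, h]
    simp

theorem dec (hE : ESC) (hX : EXP) (hH : HEC) (hS : STA) : DEC := by
  intro N H e u hN h1 hP hu hD
  obtain ⟨-, -, -, -, -, -, -, hg⟩ := grp N hN
  obtain ⟨-, hM, hn⟩ := hg H
  haveI := Mid.finiteIndex grp (hM h1)
  obtain ⟨f, g, F, G, hf, hg, hF, hG, hφ⟩ := hE.1 N _ (hM h1) u hu.add
  have uq : ∀ (f' g' F' G' : ℍ → ℂ) (z : ℂ), IsMF (GH N H) 2 f' → IsCF (GH N H) g' →
      ES.Prim f' F' → ES.Prim g' G' → (∀ γ ∈ GH N H, ∀ τ, per F' G' γ τ = z * u γ) →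
      f' = z • f ∧ g' = conj z • g := by
    intro f' g' F' G' z a1 a2 a3 a4 a5
    obtain ⟨b1, b2⟩ := hE.2 _ _ _ _ _ (a1.sub (hf.smul z)) (a2.sub (hg.smul (conj z)))
      (a3.sub (hF.smul z)) (a4.sub (hG.smul (conj z))) fun γ hγ τ => by
        have := a5 γ hγ τ
        rw [hφ γ hγ τ] at this
        simp only [per, Pi.sub_apply, Pi.smul_apply, smul_eq_mul, map_sub, map_mul,
          Complex.conj_conj] at this ⊢
        linear_combination this
    exact ⟨sub_eq_zero.1 b1, sub_eq_zero.1 b2⟩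
  obtain ⟨n, hn0, hw⟩ := Inj.exists_width (GH N H)
  have hz : Zer f := fun γ => (cusp_of_par cusp hf hF hn0 (hw γ) fun τ => by
    have a1 := hφ _ (hw γ) τ
    have a2 := (cusp_prim cusp hg hG hn0 (hw γ)).2 (γ⁻¹ • τ)
    have a3 := hu.par γ n (by rw [zpow_natCast]; exact hw γ)
    rw [zpow_natCast] at a3
    rw [smul_inv_smul, ← mul_smul, ← mul_smul] at a2
    rw [a3, per, a2, sub_self, map_zero, add_zero] at a1
    exact sub_eq_zero.1 a1.symm).2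
  have law : ∀ δ : SL(2, ℤ), (N : ℤ) ∣ δ 1 0 →
      f ∣[(2 : ℤ)] δ = e (δ 1 1) • f ∧ g ∣[(2 : ℤ)] δ = conj (e (δ 1 1)) • g := by
    intro δ hδ
    refine uq _ _ _ _ _ (hf.conj δ (hn δ hδ)) ⟨hg.1.conj δ (hn δ hδ), fun γ => ?_⟩
      (hF.compSL δ) (hG.compSL δ) fun γ hγ τ => ?_
    · rw [← SlashAction.slash_mul]
      exact hg.2 _
    · rw [← hD δ hδ γ hγ, hφ _ (hn δ hδ γ hγ) (δ • τ)]
      simp only [per, mul_smul, inv_smul_smul]
  have cf : Cusp N e f := ⟨hf.hol, fun δ k => (law δ k).1, hz⟩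
  have cg : Cusp N (fun d => conj (e d)) g := ⟨hg.1.hol, fun δ k => (law δ k).2, hg.2⟩
  obtain ⟨a, ha⟩ := hX.ex N e f hP cf
  obtain ⟨b, hb⟩ := hX.ex N _ g hP.conj cg
  have tcf : ∀ {e' : ℤ → ℂ} {h : ℍ → ℂ}, Cusp N e' h → IsMF (GH N H) 2 h → ∀ {p : ℕ} (h0 : 0 < p)
      (d : SL(2, ℤ)), Cusp N e' (Tf h0 d h) → IsCF (GH N H) (Tf h0 d h) := by
    intro e' h c1 c2 p h0 d c3
    refine c3.isCF fun γ hγ => ⟨(mem_GH.1 hγ).1, ?_⟩
    by_cases k : h = 0
    · rw [k, Tf_zero, smul_zero]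
    · have c4 := (c1.law γ (mem_GH.1 hγ).1).symm.trans (c2.slash γ hγ)
      have c5 : e' (γ 1 1) = 1 := smul_left_injective ℂ k (c4.trans (one_smul ℂ h).symm)
      rw [c5, one_smul]
  refine ⟨a, fun n => conj (b n), ⟨f, cf, ha⟩, by simpa using hS N _ b ⟨g, cg, hb⟩, ?_,
    fun p hp hpN z => ?_⟩
  · rintro ⟨γ, hγ, k⟩
    by_contra k1
    push Not at k1
    have b0 : b = 0 := funext fun n => by simpa using congrFun k1.2 n
    rw [k1.1] at ha
    rw [b0] at hb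
    rw [ha.eq ex_zero] at hF
    rw [hb.eq ex_zero] at hG
    obtain ⟨c1, d1⟩ := hF.exists_const
    obtain ⟨c2, d2⟩ := hG.exists_const
    apply k
    rw [hφ γ hγ UpperHalfPlane.I, per, d1, d1, d2, d2]
    simp
  · rw [tp_conj]
    have T1 := fun d hd => (hH N e f a p hp hP cf ha).1 hpN d hd
    have T2 := fun d hd => (hH N _ g b p hp hP.conj cg hb).1 hpN d hd
    constructor
    · intro hT
      obtain ⟨d, hd⟩ := exists_del hp hpN
      obtain ⟨c1, c2⟩ := uq _ _ _ _ z (tcf cf hf hp.pos d (T1 d hd).1).1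
        (tcf cg hg.1 hp.pos d (T2 d hd).1) (prim_T hp.pos d hF) (prim_T hp.pos d hG)
        fun γ hγ τ => by
          obtain ⟨s, g', k⟩ := (stp N p hN.pos hp).1 hpN d hd γ (mem_GH.1 hγ).1
          have m := fun i => mem_GH_of hγ (k i).2.1 (k i).2.2
          rw [per_step hp.pos fun i => (k i).1]
          exact (Finset.sum_congr rfl fun i _ => (hφ _ (m i) _).symm).trans
            (hT d hd γ hγ s g' m fun i => (k i).1)
      exact ⟨hX.uniq _ _ _ (T1 d hd).2 (c1 ▸ ha.smul z), hX.uniq _ _ _ (T2 d hd).2 (c2 ▸ hb.smul _)⟩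
    · rintro ⟨c1, c2⟩ d hd γ hγ s g' m k
      have e1 : Tf hp.pos d f = z • f := (T1 d hd).2.eq (c1 ▸ ha.smul z)
      have e2 : Tf hp.pos d g = conj z • g := (T2 d hd).2.eq (c2 ▸ hb.smul _)
      obtain ⟨x, hx⟩ := (e1 ▸ prim_T hp.pos d hF).exists_sub (hF.smul z)
      obtain ⟨y, hy⟩ := (e2 ▸ prim_T hp.pos d hG).exists_sub (hG.smul (conj z))
      have e3 := per_step hp.pos k F G UpperHalfPlane.I
      rw [Finset.sum_congr rfl fun i _ => (hφ _ (m i) _).symm] at e3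
      show _ = z * u γ
      rw [← e3, hφ γ hγ UpperHalfPlane.I, per, per, eq_add_of_sub_eq (hx _),
        eq_add_of_sub_eq (hx _), eq_add_of_sub_eq (hy _), eq_add_of_sub_eq (hy _)]
      simp only [Pi.smul_apply, smul_eq_mul, map_sub, map_add, map_mul, Complex.conj_conj]
      ring

end Vale.Agent.P027M.Fo
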