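import Vale.Agent.P027M.Fo.Defs

/-! # P027 route M, block FORM: the input for finite sets of primes (statements, part 2) -/

set_option linter.all false

open scoped MatrixGroups

noncomputable section

namespace Vale.Agent.P027M.Fo

open Vale.Agent.P027M.M

/-- **the input**: for every finite set `T` of primes outside `B`, eigenclasses modulo `3 ^ j` of
unbounded order -/
def EigF (S : Sys) (H : Subgroup (ZMod S.N)ˣ) (B : ℕ) : Prop :=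
  ∀ (T : Finset ℕ) (v : ℕ), ∃ (j : ℕ) (φ : La j →+ (SL(2, ℤ) → ZMod (3 ^ j))),
    (∀ z, Par (GH S.N H) (φ z)) ∧
    (∀ l ∈ T, l.Prime → ¬ l ∣ B → ∀ z, IsT S.N (GH S.N H) l (φ z) (φ (S.a iO wO l * z))) ∧
    ∃ z, ∃ γ ∈ GH S.N H, 3 ^ v • φ z γ ≠ 0

/-- [Fo.CHAR1] -/
def CHAR1 : Prop := ∀ (S : Sys) (H : Subgroup (ZMod S.N)ˣ) (B : ℕ), 0 < S.N → EigF S H B →
  ∃ u, EigZ S.N (GH S.N H) B (S.a iO wO) u

/-- **FORM**, final form -/
def FORM1 : Prop := ∀ (S : Sys) (H : Subgroup (ZMod S.N)ˣ) (B : ℕ), LvH S.N H → S.N ∣ B → B ≠ 0 →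
  EigF S H B → ∃ (e : ℤ → GaussianInt) (c : ℕ → GaussianInt), Chr S.N e ∧ FormS (S.N ^ 3) e c ∧
    ∀ p : ℕ, p.Prime → ¬ p ∣ B → c p = S.b p

theorem form1_of (h1 : CHAR1) (h2 : DIA) (h3 : RAT) (h4 : OUT) : FORM1 := by
  intro S H B hL hB hB0 hE
  obtain ⟨u, hu⟩ := h1 S H B hL.lv.pos hE
  obtain ⟨e, u', he, hu', hD⟩ := h2 _ H B _ u hL hB hu
  obtain ⟨b, a, hb, ha, hW⟩ := h3 S H B e u' hL hB hB0 he hu' hD
  obtain ⟨c, hc, hcb⟩ := h4 _ e b a hL.lv he ha hW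
  exact ⟨e, c, he, hc, fun p hp k => (hcb p hp fun k' => k (k'.trans hB)).trans (hb p hp k)⟩

end Vale.Agent.P027M.Fo
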