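import Vale.Agent.P027M.Fo.Dec

/-! # P027 route M, block FORM, row RAT -/

set_option linter.all false

open scoped MatrixGroups

noncomputable section

namespace Vale.Agent.P027M.Fo

open Vale.Agent.P022.H231.L3 Vale.Agent.P027M.M

namespace Rat

theorem gauss {z : ℂ} (hz : IsIntegral ℤ z) {A C : GaussianInt} (hC : C ≠ 0)
    (h : z * C = A) : ∃ b : GaussianInt, z = b := by
  letI : Algebra GaussianInt ℂ := GaussianInt.toComplex.toAlgebra
  have hi : Function.Injective (Algebra.ofId GaussianInt ℂ) := GaussianInt.toComplex_injective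
  let φ : FractionRing GaussianInt →ₐ[GaussianInt] ℂ := IsFractionRing.liftAlgHom hi
  have hC' : (C : ℂ) ≠ 0 := fun k => hC (GaussianInt.toComplex_eq_zero.1 k)
  have h1 : φ (algebraMap _ _ A / algebraMap _ _ C) = z := by
    rw [map_div₀, φ.commutes, φ.commutes]
    exact (eq_div_of_mul_eq hC' h).symm
  have h2 : IsIntegral GaussianInt (φ (algebraMap _ _ A / algebraMap _ _ C)) := h1 ▸ hz.tower_top
  rw [isIntegral_algHom_iff φ (φ : FractionRing GaussianInt →+* ℂ).injective] at h2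
  obtain ⟨b, hb⟩ := IsIntegrallyClosed.isIntegral_iff.1 h2
  exact ⟨b, by rw [← h1, ← hb, φ.commutes]; rfl⟩

/-- the embeddings `i ↦ I`, `w ↦ s` -/
def emb (s : ℂ) (hs : s * s = 3) : QO ℤ →+* ℂ :=
  (QO.lift (R := ℤ) Complex.I s Complex.I_mul_I hs (mul_comm _ _) : QO ℤ →ₐ[ℤ] ℂ)

/-- a Gaussian integer -/
def tg (x : G9 ℤ) : GaussianInt := ⟨x.re, x.im⟩

theorem emb_eq (s : ℂ) (hs : s * s = 3) (z : QO ℤ) :
    emb s hs z = z.re.re • 1 + z.re.im • Complex.I + z.im.re • s + z.im.im • (Complex.I * s) := rfl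

theorem emb_apply (s : ℂ) (hs : s * s = 3) (z : QO ℤ) :
    emb s hs z = (tg z.re : ℂ) + s * (tg z.im : ℂ) := by
  rw [emb_eq, GaussianInt.toComplex_def, GaussianInt.toComplex_def]
  simp only [tg, zsmul_eq_mul]
  ring

theorem emb_gi (s : ℂ) (hs : s * s = 3) (z : GaussianInt) : emb s hs (gi iO z) = z := by
  have : emb s hs iO = Complex.I := QO.lift_iO (R := ℤ) _ _ Complex.I_mul_I hs (mul_comm _ _)
  rw [gi, map_add, map_mul, map_intCast, map_intCast, this, GaussianInt.toComplex_def]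

theorem emb_a (s : ℂ) (hs : s * s = 3) (S : Sys) (p : ℕ) :
    emb s hs (S.a iO wO p) = if p % 4 = 1 then (S.b p : ℂ) else s * (S.b p : ℂ) := by
  have : emb s hs wO = s := QO.lift_wO (R := ℤ) _ _ Complex.I_mul_I hs (mul_comm _ _)
  unfold Sys.a
  split_ifs
  · exact emb_gi s hs _
  · rw [map_mul, this, emb_gi]

theorem three_prime : Prime (3 : GaussianInt) := by
  haveI : Fact (Nat.Prime 3) := ⟨by norm_num⟩
  simpa using GaussianInt.prime_of_nat_prime_of_mod_four_eq_three 3 rfl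

theorem int_s {s : ℂ} (hs : s * s = 3) : IsIntegral ℤ s :=
  IsIntegral.of_pow (n := 2) two_pos (by
    rw [sq, hs]
    exact isIntegral_algebraMap (x := (3 : ℤ)))

theorem indep {s : ℂ} (hs : s * s = 3) {C D : GaussianInt} (h : (C : ℂ) + s * D = 0) :
    C = 0 ∧ D = 0 := by
  have hD : D = 0 := by
    by_contra hD
    obtain ⟨b, hb⟩ := gauss (int_s hs) hD (A := -C) (by rw [map_neg]; linear_combination h)
    have h3 : b * b = 3 := GaussianInt.toComplex_injective (by rw [map_mul, ← hb, hs, map_ofNat])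
    have := three_prime.irreducible.isUnit_or_isUnit h3.symm
    rw [or_self] at this
    exact three_prime.not_unit (h3 ▸ this.mul this)
  rw [hD, map_zero, mul_zero, add_zero] at h
  exact ⟨GaussianInt.toComplex_eq_zero.1 h, hD⟩

theorem emb_ne (s : ℂ) (hs : s * s = 3) {z : QO ℤ} (h : z ≠ 0) : emb s hs z ≠ 0 := fun k => by
  rw [emb_apply] at k
  obtain ⟨h1, h2⟩ := indep hs k
  apply h
  ext
  exacts [congrArg (·.re) h1, congrArg (·.im) h1, congrArg (·.re) h2, congrArg (·.im) h2]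

theorem alg {s z : ℂ} (hs : s * s = 3) (hz : IsIntegral ℤ z) {A B C D : GaussianInt}
    (h0 : ¬ (C = 0 ∧ D = 0)) (h1 : (A : ℂ) + s * B = z * (C + s * D)) :
    ((A : ℂ) + -s * B = z * (C + -s * D) → ∃ b : GaussianInt, z = b) ∧
      ((A : ℂ) + -s * B = -z * (C + -s * D) → ∃ b : GaussianInt, z = s * b) := by
  have s0 : s ≠ 0 := by
    rintro rfl
    norm_num at hs
  refine ⟨fun h2 => ?_, fun h2 => ?_⟩
  · by_cases hC : C = 0
    · exact gauss hz (fun k => h0 ⟨hC, k⟩) (A := B)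
        (mul_left_cancel₀ s0 (by linear_combination (h2 - h1) / 2))
    · exact gauss hz hC (A := A) (by linear_combination -(h1 + h2) / 2)
  · obtain ⟨m, hm⟩ : ∃ m : GaussianInt, z * s = m := by
      by_cases hC : C = 0
      · exact gauss (hz.mul (int_s hs)) (fun k => h0 ⟨hC, k⟩) (A := A)
          (by linear_combination -(h1 + h2) / 2)
      · exact gauss (hz.mul (int_s hs)) hC (A := 3 * B)
          (by rw [map_mul, map_ofNat]; linear_combination s * (h2 - h1) / 2 + B * hs)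
    obtain ⟨n, hn⟩ := gauss (hz.mul hz) (C := 3) (A := m * m) three_prime.ne_zero
      (by rw [map_mul, map_ofNat, ← hm, ← hs]; ring)
    have h3 : m * m = 3 * n := GaussianInt.toComplex_injective (by
      rw [map_mul, map_mul, map_ofNat, ← hm, ← hn, ← hs]; ring)
    obtain ⟨b, rfl⟩ := (three_prime.dvd_or_dvd ⟨n, h3⟩).elim id id
    refine ⟨b, mul_right_cancel₀ s0 ?_⟩
    rw [hm, map_mul, map_ofNat, ← hs]
    ring

theorem integral {N p : ℕ} {H : Subgroup (ZMod N)ˣ} (hN : 0 < N) (hp : p.Prime) (hpN : ¬ p ∣ N)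
    {s : ℂ} (hs : s * s = 3) {u : SL(2, ℤ) → QO ℤ} (h0 : ∃ γ ∈ GH N H, u γ ≠ 0) {z : ℂ}
    (h : IsT N (GH N H) p (fun γ => emb s hs (u γ)) fun γ => z * emb s hs (u γ)) :
    IsIntegral ℤ z := by
  obtain ⟨d, hd⟩ := exists_del hp hpN
  refine isIntegral_of_smul_mem_submodule
    (Submodule.span ℤ ((fun γ => emb s hs (u γ)) '' (GH N H : Set SL(2, ℤ)))) ?_ ?_ z ?_
  · obtain ⟨γ, hγ, k⟩ := h0
    exact (Submodule.ne_bot_iff _).2 ⟨_, Submodule.subset_span ⟨γ, hγ, rfl⟩, emb_ne s hs k⟩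
  · refine Submodule.FG.of_le (T := Submodule.span ℤ {1, Complex.I, s, Complex.I * s})
      (Submodule.fg_span (by simp)) (Submodule.span_le.2 ?_)
    rintro _ ⟨γ, -, rfl⟩
    show emb s hs (u γ) ∈ _
    rw [emb_eq]
    refine add_mem (add_mem (add_mem ?_ ?_) ?_) ?_ <;>
      exact Submodule.smul_mem _ _ (Submodule.subset_span (by simp))
  · intro n hn
    induction hn using Submodule.span_induction with
    | mem x hx =>
      obtain ⟨γ, hγ, rfl⟩ := hx
      obtain ⟨t, g, k⟩ := (stp N p hN hp).1 hpN d hd γ (mem_GH.1 hγ).1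
      have m := fun i => mem_GH_of hγ (k i).2.1 (k i).2.2
      have e := h d hd γ hγ t g m fun i => (k i).1
      rw [smul_eq_mul, ← show _ = z * emb s hs (u γ) from e]
      exact Submodule.sum_mem _ fun i _ => Submodule.subset_span ⟨g i, m i, rfl⟩
    | zero => simp
    | add x y _ _ hx hy =>
      rw [smul_add]
      exact add_mem hx hy
    | smul a x _ hx =>
      rw [smul_comm]
      exact Submodule.smul_mem _ _ hx

theorem one_side (hD : DEC) (hS : SMO) {S : Sys} {H : Subgroup (ZMod S.N)ˣ} {B : ℕ}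
    {e : ℤ → GaussianInt} {u : SL(2, ℤ) → QO ℤ} (hL : LvH S.N H) (hB : S.N ∣ B) (hB0 : B ≠ 0)
    (he : Chr S.N e) (hu : EigZ S.N (GH S.N H) B (S.a iO wO) u)
    (hd : Dia S.N (GH S.N H) (fun d => gi iO (e d)) u) (s : ℂ) (hs : s * s = 3) :
    ∃ a, Wl S.N (fun d => (e d : ℂ)) B (fun l => emb s hs (S.a iO wO l)) a ∧ a 1 = 1 ∧
      ∀ p : ℕ, p.Prime → ¬ p ∣ S.N →
        IsT S.N (GH S.N H) p (fun γ => emb s hs (u γ)) fun γ => a p * emb s hs (u γ) := by
  have hP := he.pe hL.lv.pos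
  obtain ⟨a, b, ha, hb, h0, hT⟩ := hD S.N H _ (fun γ => emb s hs (u γ)) hL.lv hL.neg hP
    ⟨fun γ hγ δ hδ => by rw [hu.par.add γ hγ δ hδ, map_add],
      fun g h k => by rw [hu.par.par g h k, map_zero]⟩
    fun δ hδ γ hγ => by
      show emb s hs _ = _
      rw [hd δ hδ γ hγ, map_mul, emb_gi]
  have key : ∀ l : ℕ, l.Prime → ¬ l ∣ B → _ := fun l hl k =>
    (hT l hl (fun k' => k (k'.trans hB)) (emb s hs (S.a iO wO l))).1 fun d hd γ hγ t g m k' => by
      show _ = _ * _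
      rw [← map_mul, ← map_sum]
      exact congrArg _ (hu.hec l hl k d hd γ hγ t g m k')
  have wa : Wl S.N _ B (fun l => emb s hs (S.a iO wO l)) a := ⟨ha, fun l hl k => (key l hl k).1⟩
  have wb : Wl S.N _ B (fun l => emb s hs (S.a iO wO l)) b := ⟨hb, fun l hl k => (key l hl k).2⟩
  obtain ⟨s1, s2, -⟩ := hS S.N _ B (fun l => emb s hs (S.a iO wO l)) hP hB hB0
  obtain ⟨γ, hγ, k⟩ := hu.ne
  obtain ⟨a0, w0, h1⟩ := (h0 ⟨γ, hγ, emb_ne s hs k⟩).elim (s1 a wa) (s1 b wb)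
  exact ⟨a0, w0, h1, fun p hp k =>
    (hT p hp k _).2 ⟨s2 a0 w0 h1 a wa p hp k, s2 a0 w0 h1 b wb p hp k⟩⟩

theorem odd {N p : ℕ} (hN : Lv N) (hp : p.Prime) (h : ¬ p ∣ N) : p % 4 = 1 ∨ p % 4 = 3 := by
  rcases hp.eq_two_or_odd with rfl | k
  · exact absurd (Dvd.dvd.trans ⟨2, rfl⟩ hN.four) h
  · omega

end Rat

open Rat

theorem rat : Spec_RAT := by
  intro _ hD hS S H B e u hL hB hB0 he hu hd
  have hs : ((√3 : ℝ) : ℂ) * ((√3 : ℝ) : ℂ) = 3 := by
    rw [← Complex.ofReal_mul, Real.mul_self_sqrt (by norm_num)]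
    norm_num
  generalize ((√3 : ℝ) : ℂ) = s at hs ⊢
  have hs' : -s * -s = 3 := by rw [neg_mul_neg, hs]
  obtain ⟨a, wa, a1, ta⟩ := one_side hD hS hL hB hB0 he hu hd s hs
  obtain ⟨a', wa', a1', ta'⟩ := one_side hD hS hL hB hB0 he hu hd (-s) hs'
  obtain ⟨-, s2, s3⟩ := hS S.N _ B (fun l => emb s hs (S.a iO wO l)) (he.pe hL.lv.pos) hB hB0
  have cmp := s3 hL.lv.four a a' wa ⟨wa'.1, fun l hl k => by
    rw [wa'.2 l hl k]
    simp only [emb_a, c4]
    rcases odd hL.lv hl fun k' => k (k'.trans hB) with h | h <;> simp [h]⟩ a1 a1'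
  have ex : ∀ p : ℕ, ∃ b : GaussianInt, (p.Prime → ¬ p ∣ B → b = S.b p) ∧
      (p.Prime → ¬ p ∣ S.N → a p = if p % 4 = 1 then (b : ℂ) else s * (b : ℂ)) := by
    intro p
    by_cases hc : p.Prime ∧ ¬ p ∣ S.N ∧ p ∣ B
    · obtain ⟨hp, hN, hpB⟩ := hc
      obtain ⟨d, hd⟩ := exists_del hp hN
      obtain ⟨γ, hγ, k0⟩ := hu.ne
      obtain ⟨t, g, k⟩ := (stp S.N p hL.lv.pos hp).1 hN d hd γ (mem_GH.1 hγ).1
      have m := fun i => mem_GH_of hγ (k i).2.1 (k i).2.2
      have e1 : _ = a p * emb s hs (u γ) := ta p hp hN d hd γ hγ t g m fun i => (k i).1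
      have e2 : _ = a' p * emb (-s) hs' (u γ) := ta' p hp hN d hd γ hγ t g m fun i => (k i).1
      rw [← map_sum, emb_apply, emb_apply] at e1 e2
      rw [cmp p (hp.coprime_iff_not_dvd.2 hN), c4] at e2
      obtain ⟨r1, r2⟩ := alg hs (integral hL.lv.pos hp hN hs hu.ne (ta p hp hN))
        (fun h => emb_ne s hs k0 (by rw [emb_apply, h.1, h.2]; simp)) e1
      rcases odd hL.lv hp hN with h | h
      · rw [if_pos h, one_mul] at e2
        obtain ⟨b, hb⟩ := r1 e2
        exact ⟨b, fun _ k => absurd hpB k, fun _ _ => by rw [if_pos h, hb]⟩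
      · rw [if_neg (by omega), if_pos h, neg_one_mul] at e2
        obtain ⟨b, hb⟩ := r2 e2
        exact ⟨b, fun _ k => absurd hpB k, fun _ _ => by rw [if_neg (by omega), hb]⟩
    · refine ⟨S.b p, fun _ _ => rfl, fun hp hN => ?_⟩
      have := congrFun (wa.2 p hp fun k => hc ⟨hp, hN, k⟩) 1
      rw [tp, if_neg hp.not_dvd_one, one_mul, add_zero, Pi.smul_apply, a1, smul_eq_mul,
        mul_one] at this
      exact this.trans (emb_a s hs S p)
  choose b hb1 hb2 using ex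
  exact ⟨b, a, hb1, a1, wa.1, fun p hp k => by
    rw [s2 a wa a1 a wa p hp k, hb2 p hp k]⟩

end Vale.Agent.P027M.Fo
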