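import Vale.Agent.P027M.Fo.All
import Vale.Agent.P027M.TW.EigH
import Vale.Agent.P027M.ES.All

/-! # P027 route M, block FORM: from the output of block TW to the form -/

set_option linter.all false

noncomputable section

namespace Vale.Agent.P027M.Fo

open Vale.Agent.P027M.M Vale.Agent.P027M.TW

theorem dec1 : DEC := dec0 ES.esc

/-- **FORM** from the output of block TW on Kummer classes -/
theorem formK {X : Mdl} {S : Sys} {a : ℕ → O3} (hN : Ok S.N (H4 S.N))
    (hO : OutK X S.N a) (hK : InKAP X S.N (H4 S.N)) {B : ℕ} (hB : 6 * S.N ∣ B) (hB0 : B ≠ 0)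
    (hb : ∀ l : ℕ, l.Prime → ¬ l ∣ B → a l = S.a iO wO l) :
    ∃ (e : ℤ → GaussianInt) (c : ℕ → GaussianInt), Chr S.N e ∧ FormS (S.N ^ 3) e c ∧
      ∀ p : ℕ, p.Prime → ¬ p ∣ B → c p = S.b p := by
  haveI := finIdx grp hN
  obtain ⟨u, hu⟩ := eigZ_of (outH_ofK hO hK) hB (S.a iO wO) fun l hl k =>
    (hb l hl k).trans (map_a S _ l).symm
  exact formZ ES.esc (lvH hN) ((dvd_mul_left _ _).trans hB) hB0 hu

end Vale.Agent.P027M.Fo
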